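import Crest.Agent.X212.Cys97.Defs

/-!
# Row 212, CYC-SM (helper34): the leaf DN
-/

set_option autoImplicit false
set_option linter.unusedSectionVars false
set_option maxSynthPendingDepth 3
noncomputable section
open scoped Manifold ContDiff Topology InnerProductSpace
open MeasureTheory Set Function Filter

namespace Crest.Agent.X212.Hd34.Dn
open An Sob92 Prm93 Wz78 Mon62 Cys97
open Ell97 (UB)

variable {E : Type} [NormedAddCommGroup E] [NormedSpace ℝ E] [FiniteDimensional ℝ E]
  [MeasurableSpace E] [BorelSpace E]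
  {HM : Type} [TopologicalSpace HM] {I : ModelWithCorners ℝ E HM} [I.Boundaryless]
  {M : Type} [TopologicalSpace M] [ChartedSpace HM M] [IsManifold I ∞ M]
  [MeasurableSpace M] [T2Space M] [BorelSpace M] [SecondCountableTopology M] {ι : Type} [Fintype ι]
  {κ : Type} [Fintype κ] [DecidableEq κ] {N : Type} [NormedAddCommGroup N] [NormedSpace ℝ N]

/-- zero or a derivative -/
def Dp (P : Pre I M ι) : Option ι → (M → N) → M → N
  | none => fun _ _ => 0
  | some b => P.D b

theorem sm_Do (P : Pre I M ι) (s : Option ι) {u : M → N} (hu : Sm I u) : Sm I (Do P s u) := by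
  cases s
  exacts [hu, P.sm_D hu _]

theorem Do_sum (P : Pre I M ι) (s : Option ι) {σ : Option ι → M → HS κ} (hσ : ∀ t, Sm I (σ t))
    {w : Option ι → M → Eu κ} (hw : ∀ t, Sm I (w t)) (x : M) :
    Do P s (fun y => ∑ t, opL (σ t y) (w t y)) x =
      ∑ t, (opL (σ t x) (Do P s (w t) x) + opL (Dp P s (σ t) x) (w t x)) := by
  cases s with
  | none => simp [Do, Dp]
  | some b =>
    refine (dv_sum _ fun t _ => (((opL.contMDiff.comp (hσ t)).clm_apply (hw t)).mdifferentiableAt
      (by simp))).trans (Finset.sum_congr rfl fun t _ => ?_)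
    exact (dv_bil opL ((hσ t).mdifferentiableAt (by simp)) ((hw t).mdifferentiableAt (by simp))).trans
      (add_comm _ _)

theorem opL_mlL (S T : HS κ) (v : Eu κ) : opL (mlL S T) v = opL S (opL T v) := by simp [mlL]

theorem alg (a : ι → Option ι → Option ι → HS κ) (b : ι → Option ι → HS κ)
    (w : Option ι → Option ι → Eu κ) :
    ∑ p : Option ι × Option ι, opL (-∑ c, (a c p.1 p.2 + p.1.elim (b c p.2) fun _ => 0)) (w p.1 p.2) =
      -∑ c, (∑ s, ∑ t, opL (a c s t) (w s t) + ∑ t, opL (b c t) (w none t)) := by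
  rw [Fintype.sum_prod_type]
  simp only [map_neg, map_sum, map_add, ContinuousLinearMap.neg_apply,
    ContinuousLinearMap.sum_apply, ContinuousLinearMap.add_apply, Finset.sum_neg_distrib,
    Finset.sum_add_distrib]
  congr 2
  · exact (Finset.sum_congr rfl fun s _ => Finset.sum_comm).trans Finset.sum_comm
  · rw [Fintype.sum_option, Finset.sum_comm]
    simp

theorem lap_eq (P : Pre I M ι) {e : ι → (x : M) → TangentSpace I x} {A : ι → M → En κ}
    (g : ι → M → ℝ) {σ : ι → Option ι → M → HS κ} (hσ : ∀ c t, Sm I (σ c t))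
    (h : ∀ c u, nab I e A c u = fun x => ∑ t, opL (σ c t x) (Do P t u x)) {u : M → Eu κ}
    (hu : Sm I u) (x : M) : lap I e g A u x = ∑ p : Option ι × Option ι,
      opL (-∑ c, (mlL (σ c p.1 x) (σ c p.2 x) + p.1.elim
        (∑ s, mlL (σ c s x) (Dp P s (σ c p.2) x) + g c x • σ c p.2 x) fun _ => 0))
        (Do P p.1 (Do P p.2 u) x) := by
  rw [alg (fun c s t => mlL (σ c s x) (σ c t x))
    (fun c t => ∑ s, mlL (σ c s x) (Dp P s (σ c t) x) + g c x • σ c t x)
    fun s t => Do P s (Do P t u) x, lap]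
  refine congrArg Neg.neg (Finset.sum_congr rfl fun c _ => ?_)
  simp only [h, Do_sum P _ (hσ c) fun t => sm_Do P t hu, map_sum, map_add, map_smul, opL_mlL,
    ContinuousLinearMap.sum_apply, ContinuousLinearMap.add_apply, ContinuousLinearMap.smul_apply,
    Finset.sum_add_distrib, Finset.smul_sum, add_assoc]
  rw [Finset.sum_comm (f := fun s t => opL (σ c s x) (opL (Dp P s (σ c t) x) (Do P t u x)))]
  rfl

/-- **DN** -/
theorem dnStmt : DnStmt I M ι := fun κ J _ _ X Y _ _ D G A j hj hF hA => by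
  obtain ⟨S, h1, h2⟩ := hF.mix
  let σ : ι → Option ι → ∀ i, Y i → M → HS κ := fun c s i y x =>
    s.elim (hsL (A i y c x)) fun b => S c b i (D.pt i y) x • hsL 1
  have a8 : ∀ c s, D.A0 False 8 (σ c s) := fun c s => by
    cases s with
    | none => exact (hA c).lower (by omega) hj
    | some b => exact (h1 c b).smul (by omega) (Dm.A0.fixed (UB.const _))
  have a4 : ∀ c s, D.A0 False 4 (σ c s) := fun c s => (a8 c s).lower le_rfl (by omega)
  have d4 : ∀ c s t, D.A0 False 4 fun i y => Dp (D.P i) s (σ c t i y) := fun c s t => by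
    cases s with
    | none => exact Dm.A0.zero
    | some b => exact ((a8 c t).lower (l := 5) (by omega) (by omega)).dD le_rfl b
  have L : Lev 8 4 4 := Lev.left (by omega) (by omega)
  refine ⟨fun p i y x => -∑ c, (mlL (σ c p.1 i y x) (σ c p.2 i y x) + p.1.elim
      (∑ s, mlL (σ c s i y x) (Dp (D.P i) s (σ c p.2 i y) x) +
        (G i (D.pt i y)).dv c x • σ c p.2 i y x) fun _ => 0), fun ⟨s, t⟩ => ?_,
    fun i y u hu x => lap_eq (D.P i) _ (σ := fun c s => σ c s i y)
      (fun c t => (a8 c t).sz.sm i y) (fun c u => funext fun x => ?_) hu x⟩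
  · refine (Dm.A0.fsum _ fun c _ => ((a8 c s).bil mlL L le_rfl (a4 c t)).aff.add ?_).neg le_rfl
    cases s with
    | none =>
      exact (Dm.A0.fsum _ fun s _ => ((a8 c s).bil mlL L le_rfl (d4 c s t)).aff).add
        ((hF.dv c).smul le_rfl (a4 c t))
    | some b => exact Dm.A0.zero
  · rw [Fintype.sum_option, add_comm]
    refine congrArg₂ (· + ·) ((congrFun ((h2 i _ (D.mem i y)).D c u) x).trans ?_) ?_
    · simp [σ, Do]
    · simp [σ, Do]

end Crest.Agent.X212.Hd34.Dn
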