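import Crest.Agent.X212.Cys97.Defs

/-!
# Row 212, CYC-SM (helper34): the leaf EV
-/

set_option autoImplicit false
set_option linter.unusedSectionVars false
set_option maxSynthPendingDepth 3
noncomputable section
open scoped Manifold ContDiff Topology InnerProductSpace BoundedContinuousFunction
open MeasureTheory Set Function Filter

namespace Crest.Agent.X212.Hd34.Ev
open An Sob92 Mon62 Ten12

variable {E : Type} [NormedAddCommGroup E] [NormedSpace ℝ E] [FiniteDimensional ℝ E]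
  [MeasurableSpace E] [BorelSpace E]
  {HM : Type} [TopologicalSpace HM] {I : ModelWithCorners ℝ E HM} [I.Boundaryless]
  {M : Type} [TopologicalSpace M] [ChartedSpace HM M] [IsManifold I ∞ M]
  [MeasurableSpace M] [T2Space M] [BorelSpace M] [SecondCountableTopology M] {ι : Type} [Fintype ι]
  {κ : Type} [Fintype κ] {U W Z K : Type}
  [NormedAddCommGroup U] [InnerProductSpace ℝ U] [CompleteSpace U]
  [NormedAddCommGroup W] [InnerProductSpace ℝ W] [CompleteSpace W]
  [NormedAddCommGroup Z] [NormedSpace ℝ Z]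
  [NormedAddCommGroup K] [InnerProductSpace ℝ K] [CompleteSpace K]

theorem norm_sq_is {F : Pre I M ι} {h : HT F W 0} {u : M → W} (H : Is F 0 _ h u) :
    ‖h‖ ^ 2 = ∫ z, ‖u z‖ ^ 2 ∂F.μ := by
  rw [← incl_self h, H.norm_zero, Pre.nrm, Real.sq_sqrt (F.ip_nonneg 0 u), Pre.ip]
  simp only [real_inner_self_eq_norm_sq]

theorem int_sq {F : Pre I M ι} {h : HT F W 0} {u : M → W} (H : Is F 0 _ h u) :
    Integrable (fun z => ‖u z‖ ^ 2) F.μ := (memLp_two_iff_integrable_sq_norm H.memLp.1).1 H.memLp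

/-- Bessel for an operator with values in a finite dimensional space -/
theorem bessel (L : K →L[ℝ] Eu κ) {s : Set K} (hs : Orthonormal ℝ ((↑) : s → K)) (t : Finset s) :
    ∑ n ∈ t, ‖L n‖ ^ 2 ≤ Fintype.card κ * ‖L‖ ^ 2 := by
  simp only [EuclideanSpace.norm_sq_eq]
  rw [Finset.sum_comm, ← Finset.card_univ, ← nsmul_eq_mul, ← Finset.sum_const]
  refine Finset.sum_le_sum fun i _ => ?_
  obtain ⟨v, hv⟩ := (InnerProductSpace.toDual ℝ K).surjective (EuclideanSpace.proj i ∘L L)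
  have h1 : ∀ n : K, L n i = ⟪n, v⟫_ℝ := fun n => by
    rw [real_inner_comm, ← InnerProductSpace.toDual_apply_apply, hv]; rfl
  have h2 : ‖v‖ ≤ ‖L‖ := by
    rw [← (InnerProductSpace.toDual ℝ K).norm_map, hv]
    exact ContinuousLinearMap.opNorm_le_bound _ (norm_nonneg _) fun n =>
      (PiLp.norm_apply_le (L n) i).trans (L.le_opNorm n)
  simp only [h1]
  exact (hs.sum_inner_products_le v).trans (pow_le_pow_left₀ (norm_nonneg _) h2 2)

theorem exists_mul (P : Fr I M ι) (β : U →L[ℝ] Z →L[ℝ] W) :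
    ∃ m : HT P.toPre U 0 →L[ℝ] (M →ᵇ Z) →L[ℝ] HT P.toPre W 0,
      ∀ a b, Is P.toPre 0 _ (m a b) fun z => β (P.toL2 0 _ a z) (b z) := by
  have bd : ∀ (a : HT P.toPre U 0) (b : M →ᵇ Z) z,
      ‖β (P.toL2 0 _ a z) (b z)‖ ≤ ‖β‖ * ‖b‖ * ‖P.toL2 0 _ a z‖ := fun a b z =>
    (β.le_opNorm₂ _ _).trans (by
      rw [mul_right_comm]
      exact mul_le_mul_of_nonneg_right
        (mul_le_mul_of_nonneg_left (b.norm_coe_le_norm z) (norm_nonneg _)) (norm_nonneg _))
  have h : ∀ (a : HT P.toPre U 0) (b : M →ᵇ Z), ∃ g : HT P.toPre W 0,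
      Is P.toPre 0 _ g fun z => β (P.toL2 0 _ a z) (b z) := fun a b =>
    exists_Is_zero (Cb_const _) (fun _ _ => rfl) ((Lp.memLp (P.toL2 0 _ a)).of_le_mul
      (β.aestronglyMeasurable_comp₂ (Lp.aestronglyMeasurable _) b.continuous.aestronglyMeasurable)
      (Eventually.of_forall (bd a b))) (Eventually.of_forall fun _ => rfl)
  choose m hm using h
  have r : ∀ a : HT P.toPre U 0, Is P.toPre 0 _ a (P.toL2 0 _ a) := fun a => EventuallyEq.rfl
  refine ⟨LinearMap.mkContinuous₂ (LinearMap.mk₂ ℝ m (fun a a' b => ?_) (fun c a b => ?_)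
    (fun a b b' => ?_) fun c a b => ?_) ‖β‖ fun a b => ?_, hm⟩
  · refine (hm _ _).unique (((hm a b).add (hm a' b)).congr ?_)
    filter_upwards [(r a).add (r a')] with z hz
    rw [hz]; simp only [Pi.add_apply, map_add, add_apply]
  · refine (hm _ _).unique (((hm a b).smul c).congr ?_)
    filter_upwards [(r a).smul c] with z hz
    rw [hz]; simp only [Pi.smul_apply, map_smul, smul_apply]
  · exact (hm _ _).unique (((hm a b).add (hm a b')).congr (Eventually.of_forall fun z => by simp))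
  · exact (hm _ _).unique (((hm a b).smul c).congr (Eventually.of_forall fun z => by simp))
  · rw [LinearMap.mk₂_apply, ← sq_le_sq₀ (norm_nonneg _) (by positivity), norm_sq_is (hm a b),
      mul_right_comm, mul_pow, norm_sq_is (r a), ← integral_const_mul]
    refine integral_mono (int_sq (hm a b)) ((int_sq (r a)).const_mul _) fun z => ?_
    rw [← mul_pow]
    exact pow_le_pow_left₀ (norm_nonneg _) (bd a b z) 2

/-- **EV** -/
theorem evStmt : Cys97.EvStmt I M ι := fun κ κ' U K _ _ _ _ _ _ _ _ _ _ P β => by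
  obtain ⟨m, hm⟩ := exists_mul P β
  have r : ∀ a : HT P.toPre U 0, Is P.toPre 0 _ a (P.toL2 0 _ a) := fun a => EventuallyEq.rfl
  have h : ∀ (a : HT P.toPre U 0) (Λ : K →L[ℝ] (M →ᵇ Eu κ)), ∃ u : HT P.toPre (Fm κ' K) 0,
      (∀ h, ctH κ' K P.toPre 0 h u = m a (Λ h)) ∧
        ‖u‖ ≤ √(Fintype.card κ) * ‖β‖ * ‖a‖ * ‖Λ‖ := fun a Λ => by
    refine (ten κ' K P.toPre 0).exists_of_bd (m a ∘L Λ) (by positivity) fun s hs t => ?_
    simp only [ContinuousLinearMap.comp_apply, fun n : s => norm_sq_is (hm a (Λ n))]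
    rw [← integral_finsetSum t fun (n : s) _ => int_sq (hm a (Λ n)), mul_right_comm, mul_pow,
      norm_sq_is (r a), ← integral_const_mul]
    refine integral_mono (integrable_finsetSum _ fun n _ => int_sq (hm a (Λ n)))
      ((int_sq (r a)).const_mul _) fun z => ?_
    have h1 := bessel (BoundedContinuousFunction.evalCLM ℝ z ∘L Λ) hs t
    have h2 : ‖BoundedContinuousFunction.evalCLM ℝ z ∘L Λ‖ ≤ ‖Λ‖ :=
      ContinuousLinearMap.opNorm_le_bound _ (norm_nonneg _) fun n =>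
        ((Λ n).norm_coe_le_norm z).trans (Λ.le_opNorm n)
    calc ∑ n ∈ t, ‖β (P.toL2 0 _ a z) (Λ n z)‖ ^ 2
        ≤ ∑ n ∈ t, (‖β‖ * ‖P.toL2 0 _ a z‖) ^ 2 * ‖Λ n z‖ ^ 2 := Finset.sum_le_sum fun n _ => by
          rw [← mul_pow]
          exact pow_le_pow_left₀ (norm_nonneg _) (β.le_opNorm₂ _ _) 2
      _ ≤ (‖β‖ * ‖P.toL2 0 _ a z‖) ^ 2 * (Fintype.card κ * ‖Λ‖ ^ 2) := by
          rw [← Finset.mul_sum]
          exact mul_le_mul_of_nonneg_left (h1.trans (mul_le_mul_of_nonneg_left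
            (pow_le_pow_left₀ (norm_nonneg _) h2 2) (Nat.cast_nonneg _))) (sq_nonneg _)
      _ = _ := by
          simp only [mul_pow, Real.sq_sqrt (Nat.cast_nonneg (Fintype.card κ))]
          ring
  choose e he hn using h
  refine ⟨LinearMap.mkContinuous₂ (LinearMap.mk₂ ℝ e (fun a a' b => ext_ctH fun k => ?_)
    (fun c a b => ext_ctH fun k => ?_) (fun a b b' => ext_ctH fun k => ?_)
    fun c a b => ext_ctH fun k => ?_) _ hn,
    LinearMap.mkContinuous₂_norm_le _ (by positivity) _, fun a Λ h α H => ?_⟩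
  · simp [he]
  · simp [he]
  · simp [he]
  · simp [he]
  · show Is _ _ _ (ctH κ' K P.toPre 0 h (e a Λ)) _
    rw [he]
    refine (hm a (Λ h)).congr ?_
    filter_upwards [H] with z hz
    rw [hz]

end Crest.Agent.X212.Hd34.Ev
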