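import Crest.Agent.X212.Cys97.Defs

/-!
# Row 212, CYC-SM (helper34): the leaf FIN
-/

set_option autoImplicit false
set_option linter.unusedSectionVars false
set_option maxSynthPendingDepth 3
noncomputable section
open scoped Manifold ContDiff Topology InnerProductSpace
open MeasureTheory Set Function Filter

namespace Crest.Agent.X212.Hd34.Fin
open An Sob92 Prm93 Wz78 Mon62 Cyc79 Cys97 Dgr80
open Wrd81 (wd)

variable {E : Type} [NormedAddCommGroup E] [NormedSpace ℝ E] [FiniteDimensional ℝ E]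
  [MeasurableSpace E] [BorelSpace E]
  {HM : Type} [TopologicalSpace HM] {I : ModelWithCorners ℝ E HM} [I.Boundaryless]
  {M : Type} [TopologicalSpace M] [ChartedSpace HM M] [IsManifold I ∞ M]
  [MeasurableSpace M] [T2Space M] [BorelSpace M] [SecondCountableTopology M] {ι : Type} [Fintype ι]
  {lam : Type} [Fintype lam] {κ : Type} [Fintype κ] [DecidableEq κ] {K K' W : Type}
  [NormedAddCommGroup K] [InnerProductSpace ℝ K] [CompleteSpace K]
  [NormedAddCommGroup K'] [InnerProductSpace ℝ K'] [CompleteSpace K']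
  [NormedAddCommGroup W] [InnerProductSpace ℝ W] [CompleteSpace W]

section fib
variable (F : Fr I M ι) (A : ι → M → En κ) (r : CL W (En κ))

/-- words on the fibre `Fm κ K` -/
def wK (s : M → Fm κ K) (w : List (La M)) : M → Fm κ K := wd (sl F (aA K A)) s (w.map (laV _))

/-- `gc` on the fibre `Fm κ K` -/
def gK (s : M → Fm κ K) (w : List (La M)) (l : M → Fm κ K) : M → Fm ι W :=
  gc F (aA K A) (amp K ∘L r) s (w.map (laV _)) l

/-- `gh` on the fibre `Fm κ K` -/
def hK (b b' : M → Fm κ K) (x x' w w' : List (La M)) (ξ : M → W) (z : M) : Fm ι W :=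
  gK F A r b' (w ++ x) (fun y => (amp K ∘L r) (ξ y) (wK F A b' (w' ++ x) y)) z +
    gK F A r b x' (bk F (aA K A) ((w ++ x).map (laV _)) fun y =>
      (amp K ∘L r) (ξ y) (wK F A b w' y)) z

variable {F A} {R : K →L[ℝ] K'} (hR : ∀ h h', ⟪R h, R h'⟫_ℝ = ⟪h, h'⟫_ℝ) (hA : Ok F A)
  {S T : K →L[ℝ] KK F.toPre κ} {s l : M → Fm κ K} {w : List (La M)}
include hR

theorem tp_fb (a b : Fm κ K) : tp (amp K' ∘L r) (fb R a) (fb R b) = tp (amp K ∘L r) a b :=
  ext_inner_right ℝ fun ξ => by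
    simp only [inner_tp, ContinuousLinearMap.comp_apply, ← fb_amp, PiLp.inner_apply, fb_apply, hR]

include hA

theorem gK_fb (hs : FI F S s) (hw : ∀ t ∈ w, La.OK F t) : ∀ {T l}, FI F T l →
    gK F A r (fun z => fb R (s z)) w (fun z => fb R (l z)) = gK F A r s w l := by
  induction w with
  | nil => exact fun _ => rfl
  | cons t w ih =>
    intro T l hl
    have hw' : ∀ u ∈ w, La.OK F u := fun u hu => hw u (by simp [hu])
    have ht := hw t (by simp)
    have h1 := ih hw' (hl.la hA ht)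
    have g : ∀ {T l} {t : La M}, FI F T l → La.OK F t → sl F (aA K' A) (laV _ t)
        (fun z => fb R (l z)) = fun z => fb R (sl F (aA K A) (laV _ t) l z) := fun hl ht =>
      hl.wd_fb hA (w := [_]) (by simpa using ht) R
    rw [← g hl ht, ← slT_laV, ← slT_laV] at h1
    cases t with
    | mul f => exact h1
    | G =>
      have h2 := hs.wd hA hw'
      have e1 : F.res _ _ = _ := g (t := .G) hl trivial
      have e2 : F.res _ _ = _ := g (t := .G) h2 trivial
      funext x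
      refine congrArg₂ (· - ·) (congrFun h1 x) ?_
      rw [hs.wd_fb hA hw', e1, e2]
      simp only [cur, fb_nab (hl.la hA ht).sm, fb_nab (h2.la hA ht).sm, tp_fb r hR]
      rfl

theorem hK_fb {x x' w' : List (La M)} {ξ : M → W} (hs : FI F S s) (hl : FI F T l)
    (hx : ∀ t ∈ x, La.OK F t) (hx' : ∀ t ∈ x', La.OK F t) (hw : ∀ t ∈ w, La.OK F t)
    (hw' : ∀ t ∈ w', La.OK F t) (hξ : F.Cb ξ) (z : M) :
    hK F A r (fun z => fb R (s z)) (fun z => fb R (l z)) x x' w w' ξ z =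
      hK F A r s l x x' w w' ξ z := by
  have a : ∀ {w}, (∀ t ∈ w, La.OK F t) → ∀ t ∈ w ++ x, La.OK F t := fun hw t ht =>
    (List.mem_append.1 ht).elim (hw t) (hx t)
  have b : ∀ t ∈ (w ++ x).reverse, La.OK F t := fun t ht => a hw t (List.mem_reverse.1 ht)
  have h1 := (hl.wd hA (a hw')).op (Cb_clm r hξ)
  have h2 := (hs.wd hA hw').op (Cb_clm r hξ)
  simp only [hK, wK, bk_laV, hl.wd_fb hA (a hw'), hs.wd_fb hA hw', ContinuousLinearMap.comp_apply,
    ← fb_amp, h2.wd_fb hA b, gK_fb r hR hA hl (a hw) h1, gK_fb r hR hA hs hx' (h2.wd hA b)]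

end fib

variable {J : Type} {X Y : J → Type} [∀ i, NormedAddCommGroup (X i)] [∀ i, NormedSpace ℝ (X i)]
  {D : Dm I M ι X Y} {G : ∀ i, X i → Fr I M ι} {j : ℕ} {w : ∀ i, Y i → List (La M)}

theorem cbG {N : Type} [NormedAddCommGroup N] [NormedSpace ℝ N] (hF : D.FF G) (i : J) (y : Y i)
    {f : M → N} (hf : (D.P i).Cb f) : (G i (D.pt i y)).Cb f :=
  let ⟨_, h1, h2⟩ := hF.mix
  (h2 i _ (D.mem i y)).Cb (fun a b => (h1 a b).us.cb i _ (D.mem i y)) hf

theorem laOK (hF : D.FF G) (hw : Fa (D.LaY j) w) (i : J) (y : Y i) :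
    ∀ t ∈ w i y, La.OK (G i (D.pt i y)) t := by
  induction hw with
  | nil => simp
  | cons ht _ ih =>
    refine List.forall_mem_cons.2 ⟨?_, ih⟩
    cases ht with
    | mul hf => exact cbG hF i y (hf.sz.cb i y)
    | G => trivial

theorem slk (hj : 7 ≤ j) (hw : Fa (D.LaY j) w) :
    Fa (D.SLk (V := Fm κ K) j) fun i y => (w i y).map (laV _) :=
  hw.map (f := fun _ _ => laV _) fun t ht => by
    cases ht with
    | mul hf => exact .smul hj hf
    | G => exact .inr rfl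

theorem a0_hK {A : ∀ i, Y i → ι → M → En κ} (h : D.Eng G j fun i y => aA K (A i y))
    (r : CL W (En κ)) {b b' : ∀ i, Y i → M → Fm κ K} (hb : D.A0 False j b) (hb' : D.A0 False j b')
    {x x' w' : ∀ i, Y i → List (La M)} (hx : Fa (D.LaY j) x) (hx' : Fa (D.LaY j) x')
    (hw : Fa (D.LaY j) w) (hw' : Fa (D.LaY j) w') {ε : Prop} {ξ : ∀ i, Y i → M → W}
    (hξ : D.A0 ε j ξ) : D.A0 ε j fun i y =>
      hK (G i (D.pt i y)) (A i y) r (b i y) (b' i y) (x i y) (x' i y) (w i y) (w' i y) (ξ i y) := by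
  have h7 : 7 ≤ j := h.hj.trans' (by omega)
  have m : ∀ {u : ∀ i, Y i → M → Fm κ K}, D.A0 False j u →
      D.A0 ε j fun i y z => (amp K ∘L r) (ξ i y z) (u i y z) := fun hu =>
    (hξ.bil (amp K ∘L r) (Lev.self h7) (by omega) hu).imp Or.inl
  exact (h.gc _ hb' (slk h7 (hw.append hx)) (m (h.wd (slk h7 (hw'.append hx)) hb'))).add
    (h.gc _ hb (slk h7 hx') (h.bk (slk h7 (hw.append hx)) (m (h.wd (slk h7 hw') hb))))

theorem sA_eq {r : ℕ} (d : Cy M) (F : Fr I M ι) (c : Cfg M ι lam r) (l : M → c.m.A) (z : M) :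
    (d.sed F).sA c l z =
      hK F (c.m.adW c.W) (adR _) (bs F (c.m.adW c.W) c.m.pg d.f d.f') (bs F (c.m.adW c.W) c.m.pg d.f' d.f)
        (xw d.f d.f') (xw d.f' d.f) d.w' d.w (fun x => c.m.pg x (l x)) z -
      hK F (c.m.adW c.W) (adR _) (bs F (c.m.adW c.W) c.m.pg d.f d.f') (bs F (c.m.adW c.W) c.m.pg d.f' d.f)
        (xw d.f d.f') (xw d.f' d.f) d.w d.w' (fun x => c.m.pg x (l x)) z := rfl

/-- **FIN** -/
theorem finStmt : FinStmt I M ι lam := by
  intro K J _ _ _ X Y _ _ D μ r κ ε j f f' w w' U h hA hs hw hw' hU hE hb hb'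
  have x1 : Fa (D.LaY j) fun i y => xw (f i y) (f' i y) :=
    .cons (.mul hs.l) (.cons .G (.cons (.mul hs.r) .nil))
  have x2 : Fa (D.LaY j) fun i y => xw (f' i y) (f i y) :=
    .cons (.mul hs.r) (.cons .G (.cons (.mul hs.l) .nil))
  have pg := fun i y => cbG h.F i y (h.pg.cb i)
  have sep : ∀ i y, Sep (κ.F i y).toPre (f i y) (f' i y) := fun i y =>
    let ⟨φ, p1, p2⟩ := hs.ex
    ⟨cbG h.F i y (hs.l.sz.cb i y), cbG h.F i y (hs.r.sz.cb i y), φ i, cbG h.F i y (p1.cb i),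
      fun x => (p2 i y x).1, fun x => (p2 i y x).2⟩
  have f1 := fun i y => fi_bs (hA i y) (sep i y) (pg i y)
  have f2 := fun i y => fi_bs (hA i y) (sep i y).symm (pg i y)
  have ok := fun {w} (hw : Fa (D.LaY j) w) => laOK h.F hw
  refine ⟨?_, fun ε l hl => ?_, fun _ _ _ => Dm.A0.zero⟩
  · refine ((((hE.wd (slk h.h7 (hw.append x1)) hb').tp (amp K ∘L adR _) h.h7
      (hE.wd (slk h.h7 (hw'.append x1)) hb')).app h.h4 h.pg).aff).congr fun i y z => ?_
    rw [(f2 i y).wd_fb (hA i y) (ok (hw.append x1) i y),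
      (f2 i y).wd_fb (hA i y) (ok (hw'.append x1) i y), tp_fb _ (hU i y)]
    rfl
  · have hξ := hl.app h.h4 h.pg
    have e := fun {w w'} (hw : Fa (D.LaY j) w) (hw' : Fa (D.LaY j) w') =>
      (a0_hK hE (adR _) hb hb' x1 x2 hw hw' hξ).congr fun i y z =>
        (hK_fb (adR _) (hU i y) (hA i y) (f1 i y) (f2 i y) (ok x1 i y) (ok x2 i y) (ok hw i y)
          (ok hw' i y) (cbG h.F i y (hξ.sz.cb i y)) z).symm
    exact ((e hw' hw).sub h.h4 (e hw hw')).congr fun i y z => sA_eq _ _ (κ.c i y) _ z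

end Crest.Agent.X212.Hd34.Fin
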