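import Crest.Agent.X212.Cyf70.Kp

/-!
# Row 212, CYLF (helper34): the leaf KP-SY
-/

set_option autoImplicit false
set_option linter.unusedSectionVars false
noncomputable section
open scoped Manifold ContDiff Topology InnerProductSpace
open MeasureTheory Set Function Filter Real

namespace Crest.Agent.X212.Hd34.Sy
open An Map77 Sob92 Nd18 Dec35 Cyf70 Hm83

theorem half {G p : ℝ → ℝ → ℝ} {p0 a b C r h : ℝ}
    (hG : ∀ s t, HasDerivAt (fun s => G s t) (p s t) s)
    (hp : ∀ s t, |s| + |t| ≤ r → |p s t - p0 - (s * a + t * b)| ≤ C * (|s| + |t|) ^ 2)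
    (hC : 0 ≤ C) (h0 : 0 < h) (hr : 2 * h ≤ r) :
    |(G h h - G h 0 - (G 0 h - G 0 0)) / h - h * b| ≤ 5 * C * h ^ 2 := by
  have d := fun s => (hG s h).sub (hG s 0)
  obtain ⟨c, ⟨c0, c1⟩, e⟩ := exists_hasDerivAt_eq_slope (fun s => G s h - G s 0) _ h0
    (fun s _ => (d s).continuousAt.continuousWithinAt) fun s _ => d s
  have h1 := hp c h
  have h2 := hp c 0
  rw [abs_of_pos c0] at h1 h2
  rw [abs_of_pos h0] at h1
  rw [abs_zero, add_zero] at h2
  have h3 := mul_le_mul_of_nonneg_left (show (c + h) ^ 2 ≤ 4 * h ^ 2 by nlinarith) hC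
  have h4 := mul_le_mul_of_nonneg_left (show c ^ 2 ≤ h ^ 2 by nlinarith) hC
  rw [sub_zero] at e
  rw [← e, abs_le]
  have := abs_le.1 (h1 (by linarith))
  have := abs_le.1 (h2 (by linarith))
  constructor <;> linarith

theorem mixed {G p q : ℝ → ℝ → ℝ} {p0 q0 a b c d C r : ℝ}
    (hG : ∀ s t, HasDerivAt (fun s => G s t) (p s t) s)
    (hG' : ∀ s t, HasDerivAt (fun t => G s t) (q s t) t)
    (hp : ∀ s t, |s| + |t| ≤ r → |p s t - p0 - (s * a + t * b)| ≤ C * (|s| + |t|) ^ 2)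
    (hq : ∀ s t, |s| + |t| ≤ r → |q s t - q0 - (s * c + t * d)| ≤ C * (|s| + |t|) ^ 2)
    (hC : 0 ≤ C) (hr : 0 < r) : b = c := by
  refine sub_eq_zero.1 (abs_nonpos_iff.1 (ge_of_tendsto (x := 𝓝[>] (0 : ℝ))
    (f := fun h => 10 * C * h) (tendsto_nhdsWithin_of_tendsto_nhds ?_) ?_))
  · exact (by fun_prop : Continuous fun h => 10 * C * h).tendsto' 0 0 (by simp)
  · filter_upwards [Ioo_mem_nhdsGT (half_pos hr)] with h ⟨h0, h1⟩
    have h2 := abs_le.1 (half hG hp hC h0 (by linarith))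
    have h3 := abs_le.1 (half (G := fun t s => G s t) (p := fun t s => q s t) (r := r) (p0 := q0)
      (a := d) (b := c) (fun t s => hG' s t)
      (fun t s e => by simpa only [add_comm] using hq s t (by linarith)) hC h0 (by linarith))
    rw [show G h h - G 0 h - (G h 0 - G 0 0) = G h h - G h 0 - (G 0 h - G 0 0) by ring] at h3
    refine le_of_mul_le_mul_left ?_ h0
    rw [← abs_of_pos h0, ← abs_mul, abs_of_pos h0, abs_le]
    constructor <;> nlinarith

variable {E3 : Type} [NormedAddCommGroup E3] [NormedSpace ℝ E3] [FiniteDimensional ℝ E3]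
  [MeasurableSpace E3] [BorelSpace E3]
  {H3 : Type} [TopologicalSpace H3] {I3 : ModelWithCorners ℝ E3 H3} [I3.Boundaryless]
  {Y : Type} [TopologicalSpace Y] [ChartedSpace H3 Y] [IsManifold I3 ∞ Y] [T2Space Y]
  [MeasurableSpace Y] [BorelSpace Y] [SecondCountableTopology Y] [CompactSpace Y]
  {κ : Type} [Fintype κ] {lam : Type} [Fintype lam]
  {V : Type} [NormedAddCommGroup V] [InnerProductSpace ℝ V] [FiniteDimensional ℝ V]
  {D : YD I3 Y κ lam} {β : YC Y κ lam} {u v : Cz β}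

theorem cs (hD : D.OK) {w z : Y × ℝ → V} (hw : Fl D.Z.toPre w) (hz : Sm (IC I3) z)
    (hc : HasCompactSupport z) : |∫ x, ⟪w x, z x⟫_ℝ ∂D.Z.μ| ≤ D.Z.nrm 0 w * D.Z.nrm 0 z := by
  obtain ⟨C, hF⟩ := tame_Z hD
  obtain ⟨h, H⟩ := ex_is hF hw 0
  have := abs_real_inner_le_norm (D.Z.incl 0 0 _ h) (D.Z.toH 0 _ ⟨z, mem_triv hz hc⟩)
  rwa [H.inner_toH, H.norm_zero, Pre.norm_toH] at this

theorem vr_lin (hu : Vr D β u) (hv : Vr D β v) (s t : ℝ) : Vr D β (s • u + t • v) :=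
  ⟨(hu.fl.csmul s).add (hv.fl.csmul t), (hu.tg.smul fun _ => s).add (hv.tg.smul fun _ => t)⟩

theorem d0_smul {f : Cz β → Y × ℝ → V} (h : Tw D β f) (hu : Vr D β u) (s : ℝ) :
    d0 f (s • u) = s • d0 f u := funext fun x => by
  have := (h.der u hu x).scomp_of_eq (0 : ℝ) ((hasDerivAt_id' (0 : ℝ)).mul_const s) (by simp)
  simpa only [d0, smul_smul, one_mul, comp_def, Pi.smul_apply] using this.deriv

theorem expand (hD : D.OK) {f : Cz β → Y × ℝ → V} (h : Tw D β f) (c0 : Continuous (f 0))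
    (hu : Vr D β u) (hv : Vr D β v) : ∃ C ≥ 0, ∃ r > 0, ∀ z : Y × ℝ → V, Sm (IC I3) z →
      HasCompactSupport z → ∀ s t : ℝ, |s| + |t| ≤ r →
      |∫ x, ⟪f (s • u + t • v) x, z x⟫_ℝ ∂D.Z.μ - ∫ x, ⟪f 0 x, z x⟫_ℝ ∂D.Z.μ -
        (s * ∫ x, ⟪d0 f u x, z x⟫_ℝ ∂D.Z.μ + t * ∫ x, ⟪d0 f v x, z x⟫_ℝ ∂D.Z.μ)| ≤
          C * D.Z.nrm 0 z * (|s| + |t|) ^ 2 := by
  obtain ⟨C', hF⟩ := tame_Z hD
  obtain ⟨d, d1, hd⟩ := h.bd
  obtain ⟨C, C0, r, r0, hb⟩ := hd 8 le_rfl 0
  have e0 : ∀ a, D.Z.D a (fun _ : Y × ℝ => (0 : ℝ)) = fun _ => 0 := fun a => dv_const _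
  have hw : Wd D.Z.toPre (fun _ => 0) d 0 := ⟨contMDiff_const, fun _ => le_rfl, ⟨0, fun _ => le_rfl⟩,
    fun a x => by simpa [e0] using d1.le,
    fun a => by rw [e0]; exact ⟨contMDiff_const, fun k => by simpa using CB_const k (0 : ℝ)⟩⟩
  set A := D.Z.nrm 9 u + D.Z.nrm 9 v + 1
  have a1 := nrm_nonneg (F := D.Z.toPre) 9 u
  have a2 := nrm_nonneg (F := D.Z.toPre) 9 v
  refine ⟨C * A ^ 2, by positivity, r / A, by positivity, fun z hz hc s t hst => ?_⟩
  have hw' := vr_lin hu hv s t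
  have n1 : D.Z.nrm 9 (s • u + t • v) ≤ (|s| + |t|) * A := by
    refine (nrm_add hF (hu.fl.csmul s) (hv.fl.csmul t) 9).trans ?_
    rw [nrm_csmul hF s hu.fl, nrm_csmul hF t hv.fl, add_mul]
    gcongr <;> simp only [A] <;> linarith
  have h1 := (hb (fun _ => 0) hw _ hw').2
  simp only [Dec35.nw, exp_zero, one_smul] at h1
  have h2 := (cs hD ((h.fl _ hw').2.sub (h.fl _ hw').1) hz hc).trans (mul_le_mul_of_nonneg_right
    ((nrm_mono (Nat.zero_le 8) _).trans ((h1 (n1.trans ((le_div_iff₀ (by positivity)).1 hst))).trans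
      (mul_le_mul_of_nonneg_left (pow_le_pow_left₀ (nrm_nonneg _ _) n1 2) C0))) (nrm_nonneg 0 z))
  have i : ∀ {w : Y × ℝ → V}, Continuous w → Integrable (fun x => ⟪w x, z x⟫_ℝ) D.Z.μ := fun hw =>
    (hw.inner hz.continuous).integrable_of_hasCompactSupport
      (hc.mono fun x hx e => hx (by simp [e]))
  have c1 : Continuous (f (s • u + t • v)) := by
    simpa using (h.fl _ hw').2.sm.continuous.add c0
  have i1 := (i (h.fl u hu).1.sm.continuous).const_mul s
  have i2 := (i (h.fl v hv).1.sm.continuous).const_mul t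
  rw [h.add _ _ (by simpa using vr_lin hu hv s 0) (by simpa using vr_lin hu hv 0 t), d0_smul h hu,
    d0_smul h hv] at h2
  simp only [Pi.sub_apply, Pi.add_apply, Pi.smul_apply, inner_sub_left, inner_add_left,
    real_inner_smul_left] at h2
  erw [integral_sub ((i c1).sub (i c0)) (i1.add i2), integral_sub (i c1) (i c0), integral_add i1 i2,
    integral_const_mul, integral_const_mul] at h2
  exact h2.trans_eq (by ring)

/-- **KP-SY** -/
theorem sy {N : ND Y lam} (hD : D.OK) (h : Tw D β (gz N D β)) (c0 : Continuous (gz N D β 0))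
    (hg : Grad N D β) : Sy N D β := fun u v hu hv cu cv => by
  obtain ⟨F, hF⟩ := hg
  obtain ⟨C, C0, r, r0, hb⟩ := expand hD h c0 hu hv
  have cw : ∀ s t : ℝ, HasCompactSupport (s • u + t • v) := fun s t => cu.smul_left.add cv.smul_left
  have m : ∀ {a b x : ℝ}, 0 ≤ b → C * a * x ^ 2 ≤ C * (a + b) * x ^ 2 := fun hb => by
    gcongr; linarith
  have := mixed (G := fun s t => F (s • u + t • v)) (C := C * (D.Z.nrm 0 u + D.Z.nrm 0 v))
    (fun s t => ?_) (fun s t => ?_)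
    (fun s t e => (hb u hu.fl.sm cu s t e).trans (m (nrm_nonneg _ _)))
    (fun s t e => (hb v hv.fl.sm cv s t e).trans ((m (nrm_nonneg _ _)).trans_eq (by rw [add_comm])))
    (mul_nonneg C0 (add_nonneg (nrm_nonneg _ _) (nrm_nonneg _ _))) r0
  · simp only [real_inner_comm (hz N D β v _)]
    exact this.symm
  · have := hF _ u (vr_lin hu hv s t) hu (cw s t) cu
    rw [← sub_self s] at this
    refine (this.comp_sub_const s s).congr_of_eventuallyEq (.of_forall fun y => congrArg F ?_)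
    module
  · have := hF _ v (vr_lin hu hv s t) hv (cw s t) cv
    rw [← sub_self t] at this
    refine (this.comp_sub_const t t).congr_of_eventuallyEq (.of_forall fun y => congrArg F ?_)
    module

theorem syStmt (c0 : All I3 Y κ lam fun N D β => Continuous (gz N D β 0)) : SyStmt I3 Y κ lam :=
  fun N D β h t g => sy h.ok t (c0 N D β h) g

end Crest.Agent.X212.Hd34.Sy
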