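import Crest.Agent.X212.Hel40.Defs

/-!
# X212/Hd34/Del (helper34): the step across an annulus, `Hel40.DelStmt`
-/

set_option autoImplicit false

open Set Filter Topology Function
open scoped ContDiff Manifold
open Crest.Agent.X212.Sep15 (CM EE)
open Crest.Agent.X212.Hel40

noncomputable section

namespace Crest.Agent.X212.Hd34

variable {R : CM 2} {A : ℂ → R} {ε : ℝ}

open Classical in
/-- a function of the height, extended by `z₀` -/
def ex {X Z : Type*} (A : ℂ → X) (k : ℝ → Z) (z₀ : Z) (x : X) : Z :=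
  if h : ∃ z, A z = x then k h.choose.im else z₀

theorem ex_app {Z : Type*} (hA : An' A) (k : ℝ → Z) (z₀ : Z) (z : ℂ) : ex A k z₀ (A z) = k z.im := by
  have h : ∃ w, A w = A z := ⟨z, rfl⟩
  obtain ⟨n, hn⟩ := (hA.2 _ _).1 h.choose_spec
  rw [ex, dif_pos h]
  congr 1
  simpa using (congrArg Complex.im hn).symm

theorem ex_off {Z : Type*} (hA : An' A) {k : ℝ → Z} {z₀ : Z} (hk : ∀ r, ε < |r| → k r = z₀) {x : R}
    (hx : x ∉ A '' {z | |z.im| ≤ ε}) : ex A k z₀ x = z₀ := by
  by_cases h : ∃ z, A z = x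
  · obtain ⟨z, rfl⟩ := h
    rw [ex_app hA, hk _ (not_le.1 fun h => hx ⟨z, h, rfl⟩)]
  · exact dif_neg h

theorem band_cpt (hA : An' A) (ε : ℝ) : IsCompact (A '' {z | |z.im| ≤ ε}) := by
  have : A '' {z | |z.im| ≤ ε} = A '' (Icc 0 1 ×ℂ Icc (-ε) ε) := by
    apply Subset.antisymm
    · rintro _ ⟨z, hz, rfl⟩
      refine ⟨z + (-⌊z.re⌋ : ℤ), ⟨?_, ?_⟩, ((hA.2 _ _).2 ⟨_, rfl⟩).symm⟩
      · simp only [mem_preimage, Complex.add_re, Complex.intCast_re, mem_Icc]
        push_cast
        exact ⟨by linarith [Int.floor_le z.re], by linarith [Int.lt_floor_add_one z.re]⟩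
      · simpa [abs_le] using hz
    · exact image_mono fun z hz => abs_le.2 hz.2
  rw [this]
  exact (isCompact_Icc.reProdIm isCompact_Icc).image hA.1.contMDiff.continuous

theorem ex_smooth {E' H' Z : Type*} [NormedAddCommGroup E'] [NormedSpace ℝ E'] [TopologicalSpace H']
    {J : ModelWithCorners ℝ E' H'} [TopologicalSpace Z] [ChartedSpace H' Z] (hA : An' A)
    {k : ℝ → Z} {z₀ : Z} (hs : ContMDiff 𝓘(ℝ, ℝ) J ∞ k) (hk : ∀ r, ε < |r| → k r = z₀) :
    ContMDiff (𝓡 2) J ∞ (ex A k z₀) := by
  intro x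
  by_cases h : x ∈ A '' {z | |z.im| ≤ ε}
  · obtain ⟨z, -, rfl⟩ := h
    refine Glue52.contMDiffAt_of_comp (hA.1 z) ?_
    rw [show ex A k z₀ ∘ A = k ∘ Complex.imCLM from funext (ex_app hA k z₀)]
    exact (hs.comp Complex.imCLM.contDiff.contMDiff) z
  · refine (contMDiffAt_const (c := z₀)).congr_of_eventuallyEq ?_
    filter_upwards [(band_cpt hA ε).isClosed.isOpen_compl.mem_nhds h] with y hy
    exact ex_off hA hk hy

theorem ex_contAt (hA : An' A) {k : ℝ → ℝ} {z : ℂ} (hk : ContinuousAt k z.im) :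
    ContinuousAt (ex A k 0) (A z) := by
  have h := hA.1 z
  have h1 : ContinuousAt (fun w : ℂ => k w.im) (h.localInverse (A z)) := by
    rw [h.localInverse_left_inv h.localInverse_mem_target]
    exact hk.comp Complex.continuous_im.continuousAt
  refine (h1.comp h.localInverse_contMDiffAt.continuousAt).congr ?_
  filter_upwards [h.localInverse_eventuallyEq_right] with y hy
  rw [comp_apply, ← ex_app hA k 0]
  exact congrArg _ hy

theorem stp_lo (hε : 0 < ε) {r : ℝ} (h : r ≤ -ε) : stp ε r = 0 := by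
  refine Real.smoothTransition.zero_of_nonpos ?_
  have : r / ε ≤ -1 := by rw [div_le_iff₀ hε]; linarith
  linarith

theorem stp_hi (hε : 0 < ε) {r : ℝ} (h : ε ≤ r) : stp ε r = 1 := by
  refine Real.smoothTransition.one_of_one_le ?_
  have : 1 ≤ r / ε := by rw [le_div_iff₀ hε]; linarith
  linarith

theorem stp_cd (ε : ℝ) : ContDiff ℝ ∞ (stp ε) :=
  Real.smoothTransition.contDiff.comp (by fun_prop)

theorem exp_stp_far (hε : 0 < ε) {r : ℝ} (h : ε ≤ |r|) : Circle.exp (2 * Real.pi * stp ε r) = 1 := by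
  rcases le_abs.1 h with h | h
  · rw [stp_hi hε h, mul_one, Circle.exp_two_pi]
  · rw [stp_lo hε (by linarith), mul_zero, Circle.exp_zero]

theorem del_app (hA : An' A) (z : ℂ) : del A ε (A z) = Circle.exp (2 * Real.pi * stp ε z.im) :=
  ex_app hA (fun r => Circle.exp (2 * Real.pi * stp ε r)) 1 z

theorem del_off (hA : An' A) (hε : 0 < ε) {x : R} (hx : x ∉ A '' {z | |z.im| ≤ ε}) :
    del A ε x = 1 :=
  ex_off hA (k := fun r => Circle.exp (2 * Real.pi * stp ε r)) (fun _ h => exp_stp_far hε h.le) hx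

theorem mem_core (hA : An' A) {z : ℂ} : A z ∈ core A ↔ z.im = 0 := by
  constructor
  · rintro ⟨t, ht⟩
    obtain ⟨n, hn⟩ := (hA.2 _ _).1 ht
    simp [hn]
  · intro h
    exact ⟨z.re, congrArg A (by apply Complex.ext <;> simp [h])⟩

theorem core_closed (hA : An' A) : IsClosed (core A) := by
  convert (band_cpt hA 0).isClosed using 1
  ext x; constructor
  · rintro ⟨t, rfl⟩; exact ⟨t, by simp, rfl⟩
  · rintro ⟨z, hz, rfl⟩; exact (mem_core hA).2 (by simpa using hz)

/-- if the step has no logarithm on `V`, the core does not separate `V` -/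
theorem conn (hA : An' A) (hε : 0 < ε) {V : Set R} (hV : IsOpen V) (hc : IsPreconnected V)
    (hs : A '' {z | |z.im| ≤ ε} ⊆ V) (hn : ¬ Lifts (del A ε) V) : IsPreconnected (V \ core A) := by
  classical
  have := ChartedSpace.locallyConnectedSpace (EE 2) R
  have cA := hA.1.contMDiff.continuous
  have oW : IsOpen (V \ core A) := hV.sdiff (core_closed hA)
  have side : ∀ s : ℝ, s = 1 ∨ s = -1 → ∀ z : ℂ, 0 < s * z.im → |z.im| ≤ ε →
      A z ∈ connectedComponentIn (V \ core A) (A (s * ε * Complex.I)) := by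
    intro s hs' z h1 h2
    have cv : Convex ℝ {z : ℂ | 0 < s * z.im ∧ |z.im| ≤ ε} := by
      have : {z : ℂ | 0 < s * z.im ∧ |z.im| ≤ ε} =
          Complex.imLm ⁻¹' ({r | 0 < s * r} ∩ Icc (-ε) ε) := by ext; simp [abs_le]
      rw [this]
      exact ((convex_halfSpace_gt (f := fun r : ℝ => s * r)
        ⟨fun _ _ => by ring, fun _ _ => by simp; ring⟩ 0).inter (convex_Icc _ _)).linear_preimage _
    refine (cv.isPreconnected.image A cA.continuousOn).subset_connectedComponentIn
      ⟨_, ?_, rfl⟩ ?_ ⟨z, ⟨h1, h2⟩, rfl⟩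
    · rcases hs' with rfl | rfl <;> simp [hε, abs_of_pos hε]
    · rintro _ ⟨w, hw, rfl⟩
      exact ⟨hs ⟨w, hw.2, rfl⟩, fun h => by simpa [(mem_core hA).1 h] using hw.1⟩
  set P := connectedComponentIn (V \ core A) (A ((1 : ℝ) * ε * Complex.I)) with hP
  set M := connectedComponentIn (V \ core A) (A ((-1 : ℝ) * ε * Complex.I)) with hM
  have oP : IsOpen P := oW.connectedComponentIn
  have oM : IsOpen M := oW.connectedComponentIn
  have oN : IsOpen (A '' {z | |z.im| < ε}) :=
    hA.1.isOpenMap _ (isOpen_lt Complex.continuous_im.abs continuous_const)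
  have sN : ∀ z : ℂ, |z.im| ≤ ε → z.im ≠ 0 → A z ∈ P ∪ M := fun z h1 h2 => by
    rcases lt_or_gt_of_ne h2 with h | h
    · exact Or.inr (side (-1) (Or.inr rfl) z (by linarith) h1)
    · exact Or.inl (side 1 (Or.inl rfl) z (by linarith) h1)
  have cov : V ⊆ P ∪ M ∪ A '' {z | |z.im| < ε} := by
    refine hc.subset_left_of_subset_union (v := (V \ core A) \ (P ∪ M)) ((oP.union oM).union oN)
      (isOpen_iff_mem_nhds.2 fun x hx => ?_) (disjoint_left.2 ?_) (fun x hx => ?_)
      ⟨A 0, hs ⟨0, by simpa using hε.le, rfl⟩, Or.inr ⟨0, by simpa using hε, rfl⟩⟩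
    · filter_upwards [(oW.connectedComponentIn (x := x)).mem_nhds (mem_connectedComponentIn hx.1)]
        with y hy
      refine ⟨connectedComponentIn_subset _ _ hy, fun h => hx.2 ?_⟩
      have e := connectedComponentIn_eq hy
      have m := mem_connectedComponentIn hx.1
      rcases h with h | h
      · exact Or.inl (by rw [hP, connectedComponentIn_eq h, ← e]; exact m)
      · exact Or.inr (by rw [hM, connectedComponentIn_eq h, ← e]; exact m)
    · rintro x (h | ⟨z, hz, rfl⟩) h'
      · exact h'.2 h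
      · exact h'.2 (sN z (le_of_lt hz) fun h => h'.1.2 ((mem_core hA).2 h))
    · by_cases h : x ∈ core A
      · obtain ⟨t, rfl⟩ := h
        exact Or.inl (Or.inr ⟨t, by simpa using hε, rfl⟩)
      · by_cases h' : x ∈ P ∪ M
        exacts [Or.inl (Or.inl h'), Or.inr ⟨⟨hx, h⟩, h'⟩]
  by_cases hd : (P ∩ M).Nonempty
  · have : V \ core A = P ∪ M := by
      refine Subset.antisymm (fun x hx => ?_) (union_subset (connectedComponentIn_subset _ _)
        (connectedComponentIn_subset _ _))
      rcases cov hx.1 with h | ⟨z, hz, rfl⟩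
      · exact h
      · exact sN z (le_of_lt hz) fun h => hx.2 ((mem_core hA).2 h)
    rw [this]
    exact IsPreconnected.union' hd isPreconnected_connectedComponentIn
      isPreconnected_connectedComponentIn
  exfalso
  let k : ℝ → ℝ := fun r => 2 * Real.pi * stp ε r - if 0 < r then 2 * Real.pi else 0
  have ck : Continuous fun r => 2 * Real.pi * stp ε r := continuous_const.mul (stp_cd ε).continuous
  have k0 : ∀ r, ε < |r| → k r = 0 := fun r hr => by
    rcases lt_abs.1 hr with h | h
    · simp only [k, stp_hi hε h.le, if_pos (hε.trans h)]; ring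
    · simp only [k, stp_lo hε (by linarith : r ≤ -ε), if_neg (by linarith : ¬ 0 < r)]; ring
  have cg : ∀ x ∉ core A, ContinuousAt (ex A k 0) x := by
    intro x hx
    by_cases h : x ∈ A '' {z | |z.im| ≤ ε}
    · obtain ⟨z, -, rfl⟩ := h
      refine ex_contAt hA ?_
      rcases lt_or_gt_of_ne fun h => hx ((mem_core hA).2 h) with h | h
      · refine ck.continuousAt.congr ?_
        filter_upwards [Iio_mem_nhds h] with r hr
        simp only [k, if_neg (not_lt.2 (le_of_lt (show r < 0 from hr))), sub_zero]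
      · refine (ck.sub (continuous_const (y := 2 * Real.pi))).continuousAt.congr ?_
        filter_upwards [Ioi_mem_nhds h] with r hr
        simp only [k, if_pos (show 0 < r from hr), Pi.sub_apply]
    · refine (continuousAt_const (y := (0 : ℝ))).congr ?_
      filter_upwards [(band_cpt hA ε).isClosed.isOpen_compl.mem_nhds h] with y hy
      exact (ex_off hA k0 hy).symm
  refine hn ⟨fun x => ex A k 0 x + if x ∈ P then 2 * Real.pi else 0, fun x hx => ?_, fun x _ => ?_⟩
  · refine ContinuousAt.continuousWithinAt ?_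
    rcases cov hx with (h | h) | ⟨z, hz, rfl⟩
    · refine ((cg x (connectedComponentIn_subset _ _ h).2).add
        (continuousAt_const (y := 2 * Real.pi))).congr ?_
      filter_upwards [oP.mem_nhds h] with y hy
      simp only [if_pos hy, Pi.add_apply]
    · refine (cg x (connectedComponentIn_subset _ _ h).2).congr ?_
      filter_upwards [oM.mem_nhds h] with y hy
      simp only [if_neg fun h' : y ∈ P => hd ⟨y, h', hy⟩, add_zero]
    · refine (ex_contAt hA ck.continuousAt).congr ?_
      filter_upwards [oN.mem_nhds ⟨z, hz, rfl⟩]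
      rintro _ ⟨w, hw, rfl⟩
      rw [ex_app hA, ex_app hA]
      by_cases h : 0 < w.im
      · have : A w ∈ P := side 1 (Or.inl rfl) w (by linarith) (le_of_lt hw)
        simp only [k, if_pos h, if_pos this]; ring
      · have : A w ∉ P := fun h' => by
          rcases (not_lt.1 h).eq_or_lt with e | e
          · exact (connectedComponentIn_subset _ _ h').2 ((mem_core hA).2 e)
          · exact hd ⟨_, h', side (-1) (Or.inr rfl) w (by linarith) (le_of_lt hw)⟩
        simp only [k, if_neg h, if_neg this]; ring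
  · have e2 : ∀ (p : Prop) [Decidable p], Circle.exp (if p then 2 * Real.pi else 0) = 1 := by
      intro p _; split_ifs <;> simp
    rw [Circle.exp_add, e2, mul_one]
    by_cases h : x ∈ A '' {z | |z.im| ≤ ε}
    · obtain ⟨z, -, rfl⟩ := h
      rw [del_app hA, ex_app hA, Circle.exp_sub, e2, div_one]
    · rw [del_off hA hε h, ex_off hA k0 h, Circle.exp_zero]

/-- **DEL** -/
theorem delStmt : DelStmt := by
  intro R A ε hA hε
  have cd : ∀ η, ContDiff ℝ ∞ fun r => 2 * Real.pi * stp η r := fun η => contDiff_const.mul (stp_cd η)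
  refine ⟨ex_smooth hA (k := fun r => Circle.exp (2 * Real.pi * stp ε r)) (ε := ε)
      (contMDiff_circleExp.comp (cd ε).contMDiff) fun _ h => exp_stp_far hε h.le,
    del_app hA, band_cpt hA ε, fun x => del_off hA hε, fun ε' hε' => ?_,
    fun V h1 h2 h3 h4 => conn hA hε h1 h2 h3 h4⟩
  have k0 : ∀ r, max ε ε' < |r| → 2 * Real.pi * stp ε r - 2 * Real.pi * stp ε' r = 0 := by
    intro r hr
    have h1 := le_max_left ε ε'
    have h2 := le_max_right ε ε'
    rcases lt_abs.1 hr with h | h
    · rw [stp_hi hε (by linarith), stp_hi hε' (by linarith), sub_self]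
    · rw [stp_lo hε (by linarith), stp_lo hε' (by linarith), sub_self]
  refine ⟨ex A (fun r => 2 * Real.pi * stp ε r - 2 * Real.pi * stp ε' r) 0,
    ex_smooth hA ((cd ε).sub (cd ε')).contMDiff k0, fun x => ?_⟩
  by_cases h : x ∈ range A
  · obtain ⟨z, rfl⟩ := h
    rw [del_app hA, del_app hA, ex_app hA, Circle.exp_sub, mul_div_cancel]
  · have n : ∀ η, x ∉ A '' {z | |z.im| ≤ η} := fun η h' => h (image_subset_range _ _ h')
    rw [del_off hA hε (n _), del_off hA hε' (n _), ex_off hA k0 (n _), Circle.exp_zero, mul_one]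

end Crest.Agent.X212.Hd34
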