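import Crest.Agent.X212.Hd34.Del
import Crest.Agent.X212.Cyl58.Int

/-!
# X212/Hd34/Hd (helper34): topology of a handle chart, `Hel40.Hd1Stmt`, `Hel40.Hd3Stmt`
-/

set_option autoImplicit false

open Set Filter Topology Function
open scoped ContDiff Manifold
open Crest.Agent.X212.Sep15 (CM EE)
open Crest.Agent.X212.Hel40

noncomputable section

namespace Crest.Agent.X212.Hd34

variable {R : CM 2} {e : ℂ → R} {δ δ' a : ℝ}

theorem isOpen_Xo (δ : ℝ) : IsOpen (Xo δ) := by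
  have : Xo δ = (⋃ n : ℤ, {z : ℂ | |z.re - n| < δ}) ∪ ⋃ n : ℤ, {z : ℂ | |z.im - n| < δ} := by
    ext; simp [Xo]
  rw [this]
  exact (isOpen_iUnion fun n => isOpen_lt (by fun_prop) continuous_const).union
    (isOpen_iUnion fun n => isOpen_lt (by fun_prop) continuous_const)

theorem Xc_sub (h : δ' < δ) : Xc δ' ⊆ Xo δ := fun _ hz =>
  hz.imp (fun ⟨n, hn⟩ => ⟨n, hn.trans_lt h⟩) fun ⟨n, hn⟩ => ⟨n, hn.trans_lt h⟩

theorem lat_iff {z w : ℂ} : Lat z w ↔ (∃ m : ℤ, w.re = z.re + m) ∧ ∃ n : ℤ, w.im = z.im + n := by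
  constructor
  · rintro ⟨m, n, rfl⟩; exact ⟨⟨m, by simp⟩, n, by simp⟩
  · rintro ⟨⟨m, hm⟩, n, hn⟩; exact ⟨m, n, by apply Complex.ext <;> simp [hm, hn]⟩

theorem Xo_lat {z w : ℂ} (h : Lat z w) (hz : z ∈ Xo δ) : w ∈ Xo δ := by
  obtain ⟨⟨m, hm⟩, n, hn⟩ := lat_iff.1 h
  rcases hz with ⟨k, hk⟩ | ⟨k, hk⟩
  · exact Or.inl ⟨k + m, by rw [hm]; push_cast; rwa [add_sub_add_right_eq_sub]⟩
  · exact Or.inr ⟨k + n, by rw [hn]; push_cast; rwa [add_sub_add_right_eq_sub]⟩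

theorem Xc_lat {z w : ℂ} (h : Lat z w) (hz : z ∈ Xc δ) : w ∈ Xc δ := by
  obtain ⟨⟨m, hm⟩, n, hn⟩ := lat_iff.1 h
  rcases hz with ⟨k, hk⟩ | ⟨k, hk⟩
  · exact Or.inl ⟨k + m, by rw [hm]; push_cast; rwa [add_sub_add_right_eq_sub]⟩
  · exact Or.inr ⟨k + n, by rw [hn]; push_cast; rwa [add_sub_add_right_eq_sub]⟩

theorem lat_refl (z : ℂ) : Lat z z := ⟨0, 0, by simp⟩

theorem lat_symm {z w : ℂ} (h : Lat z w) : Lat w z := by
  obtain ⟨m, n, rfl⟩ := h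
  exact ⟨-m, -n, by push_cast; ring⟩

theorem lat_trans {z w v : ℂ} (h : Lat z w) (h' : Lat w v) : Lat z v := by
  obtain ⟨m, n, rfl⟩ := h
  obtain ⟨m', n', rfl⟩ := h'
  exact ⟨m + m', n + n', by push_cast; ring⟩

theorem exists_red (z : ℂ) : ∃ w, Lat z w ∧ w.re ∈ Ico (0 : ℝ) 1 ∧ w.im ∈ Ico (0 : ℝ) 1 := by
  refine ⟨⟨Int.fract z.re, Int.fract z.im⟩, lat_iff.2 ⟨⟨-⌊z.re⌋, ?_⟩, -⌊z.im⌋, ?_⟩,
    ⟨Int.fract_nonneg _, Int.fract_lt_one _⟩, Int.fract_nonneg _, Int.fract_lt_one _⟩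
  · push_cast; rfl
  · push_cast; rfl

theorem near_iff {x : ℝ} (hx : x ∈ Ico (0 : ℝ) 1) : (∃ n : ℤ, |x - n| < δ) → x < δ ∨ 1 - δ < x := by
  rintro ⟨n, hn⟩
  rcases le_or_gt n 0 with h | h
  · have : (n : ℝ) ≤ 0 := by exact_mod_cast h
    exact Or.inl (by linarith [(abs_lt.1 hn).2])
  · have : (1 : ℝ) ≤ n := by exact_mod_cast h
    exact Or.inr (by linarith [(abs_lt.1 hn).1])

theorem far {x : ℝ} (h1 : δ < x) (h2 : x < 1 - δ) : ¬ ∃ n : ℤ, |x - n| ≤ δ := by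
  rintro ⟨n, hn⟩
  rcases le_or_gt n 0 with h | h
  · have : (n : ℝ) ≤ 0 := by exact_mod_cast h
    linarith [(abs_le.1 hn).2]
  · have : (1 : ℝ) ≤ n := by exact_mod_cast h
    linarith [(abs_le.1 hn).1]

theorem int_zero {n : ℤ} (h1 : (-1 : ℝ) < n) (h2 : (n : ℝ) < 1) : n = 0 := by
  have a : (-1 : ℤ) < n := by exact_mod_cast h1
  have b : n < 1 := by exact_mod_cast h2
  omega

theorem contOn (h : Hdl e δ) : ContinuousOn e (Xo δ) := fun z hz =>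
  (h.ld z hz).contMDiffAt.continuousAt.continuousWithinAt

/-- connectedness read in a fundamental domain -/
theorem conn_img (h : Hdl e δ) {Y S : Set ℂ} (hY : Y ⊆ Xo δ) (hS : S ⊆ Xo δ) (hc : IsPreconnected S)
    (h1 : ∀ w ∈ Xo δ, w.re ∈ Ico (0 : ℝ) 1 → w.im ∈ Ico (0 : ℝ) 1 → (∀ y ∈ Y, ¬ Lat w y) → w ∈ S)
    (h2 : ∀ z ∈ S, ∀ y ∈ Y, ¬ Lat z y) : IsPreconnected (e '' Xo δ \ e '' Y) := by
  convert hc.image e ((contOn h).mono hS) using 1
  ext x; constructor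
  · rintro ⟨⟨z, hz, rfl⟩, hn⟩
    obtain ⟨w, l, w1, w2⟩ := exists_red z
    have hw := Xo_lat l hz
    have e1 := (h.eq z hz w hw).2 l
    exact ⟨w, h1 w hw w1 w2 fun y hy l' => hn ⟨y, hy, ((h.eq w hw y (hY hy)).2 l').symm.trans e1.symm⟩,
      e1.symm⟩
  · rintro ⟨z, hz, rfl⟩
    exact ⟨⟨z, hS hz, rfl⟩, fun ⟨y, hy, e1⟩ => h2 z hz y hy ((h.eq z (hS hz) y (hY hy)).1 e1.symm)⟩

theorem conv_box (p q r s : ℝ) : IsPreconnected (Ioo p q ×ℂ Ioo r s) :=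
  (((convex_Ioo p q).linear_preimage Complex.reLm).inter
    ((convex_Ioo r s).linear_preimage Complex.imLm)).isPreconnected

theorem bx {p q r s x y : ℝ} (a : p < x) (b : x < q) (c : r < y) (d : y < s) :
    (⟨x, y⟩ : ℂ) ∈ Ioo p q ×ℂ Ioo r s := ⟨⟨a, b⟩, c, d⟩

/-- the square frame -/
def Fr (a δ : ℝ) : Set ℂ := {z | z.re ∈ Ioo a (1 - a) ∧ z.im ∈ Ioo a (1 - a) ∧
  (z.re < δ ∨ 1 - δ < z.re ∨ z.im < δ ∨ 1 - δ < z.im)}

theorem Fr_sub (ha : -δ ≤ a) : Fr a δ ⊆ Xo δ := by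
  rintro z ⟨h1, h2, h | h | h | h⟩
  · exact Or.inl ⟨0, abs_lt.2 ⟨by simp; linarith [h1.1], by simpa using h⟩⟩
  · exact Or.inl ⟨1, abs_lt.2 ⟨by simp; linarith, by simp; linarith [h1.2]⟩⟩
  · exact Or.inr ⟨0, abs_lt.2 ⟨by simp; linarith [h2.1], by simpa using h⟩⟩
  · exact Or.inr ⟨1, abs_lt.2 ⟨by simp; linarith, by simp; linarith [h2.2]⟩⟩

theorem Fr_conn (ha : a < δ) (hδ : δ < 1 / 2) {D : Set ℂ}
    (h1 : ∀ z ∈ D, z.re < δ ∧ δ ≤ z.im ∧ z.im ≤ 1 - δ)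
    (h2 : ∀ z ∈ D, ∀ w : ℂ, w.re = z.re → |w.im - 1 / 2| ≤ |z.im - 1 / 2| → w ∈ D) :
    IsPreconnected (Fr a δ \ D) := by
  set m := (a + δ) / 2 with hm
  have m1 : a < m := by linarith
  have m2 : m < δ := by linarith
  let T : Set ℂ := Ioo a (1 - a) ×ℂ Ioo a δ ∪ Ioo (1 - δ) (1 - a) ×ℂ Ioo a (1 - a) ∪
    Ioo a (1 - a) ×ℂ Ioo (1 - δ) (1 - a)
  have cT : IsPreconnected T := by
    refine IsPreconnected.union ⟨1 - m, 1 - m⟩ (Or.inr (bx ?_ ?_ ?_ ?_)) (bx ?_ ?_ ?_ ?_)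
      (IsPreconnected.union ⟨1 - m, m⟩ (bx ?_ ?_ ?_ ?_) (bx ?_ ?_ ?_ ?_) (conv_box _ _ _ _)
        (conv_box _ _ _ _)) (conv_box _ _ _ _) <;> linarith
  have sT : T ⊆ Fr a δ \ D := by
    rintro z ((h | h) | h)
    · exact ⟨⟨h.1, ⟨h.2.1, by linarith [h.2.2]⟩, Or.inr (Or.inr (Or.inl h.2.2))⟩,
        fun k => by linarith [(h1 z k).2.1, h.2.2]⟩
    · exact ⟨⟨⟨by linarith [h.1.1], h.1.2⟩, h.2, Or.inr (Or.inl h.1.1)⟩,
        fun k => by linarith [(h1 z k).1, h.1.1]⟩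
    · exact ⟨⟨h.1, ⟨by linarith [h.2.1], h.2.2⟩, Or.inr (Or.inr (Or.inr h.2.1))⟩,
        fun k => by linarith [(h1 z k).2.2, h.2.1]⟩
  have x0 : (⟨m, m⟩ : ℂ) ∈ T := Or.inl (Or.inl ⟨⟨m1, by simp; linarith⟩, m1, m2⟩)
  refine isPreconnected_of_forall ⟨m, m⟩ fun y hy => ?_
  by_cases hT : y ∈ T
  · exact ⟨T, sT, x0, hT, cT⟩
  obtain ⟨⟨y1, y2, y3⟩, y4⟩ := hy
  have i1 : δ ≤ y.im := le_of_not_gt fun k => hT (Or.inl (Or.inl ⟨y1, y2.1, k⟩))
  have i2 : y.im ≤ 1 - δ := le_of_not_gt fun k => hT (Or.inr ⟨y1, k, y2.2⟩)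
  have i3 : y.re < δ := by
    rcases y3 with k | k | k | k
    exacts [k, (hT (Or.inl (Or.inr ⟨⟨k, y1.2⟩, y2⟩))).elim, absurd k (not_lt.2 i1),
      absurd k (not_lt.2 i2)]
  have seg : ∀ p q : ℝ, a < p → q < 1 - a →
      (∀ t ∈ Icc p q, |y.im - 1 / 2| ≤ |t - 1 / 2|) → y.im ∈ Icc p q →
      (∃ t ∈ Icc p q, (⟨y.re, t⟩ : ℂ) ∈ T) →
      ∃ t ⊆ Fr a δ \ D, (⟨m, m⟩ : ℂ) ∈ t ∧ y ∈ t ∧ IsPreconnected t := by
    rintro p q hp hq k1 k2 ⟨t, ht, k3⟩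
    refine ⟨T ∪ {y.re} ×ℂ Icc p q, union_subset sT fun z hz => ?_, Or.inl x0, Or.inr ⟨rfl, k2⟩,
      cT.union ⟨y.re, t⟩ k3 ⟨rfl, ht⟩ (((convex_singleton _).linear_preimage Complex.reLm).inter
        ((convex_Icc p q).linear_preimage Complex.imLm)).isPreconnected⟩
    have e1 : z.re = y.re := hz.1
    exact ⟨⟨e1 ▸ y1, ⟨hp.trans_le hz.2.1, hz.2.2.trans_lt hq⟩, Or.inl (e1 ▸ i3)⟩,
      fun k => y4 (h2 z k y e1.symm (k1 _ hz.2))⟩
  rcases le_total y.im (1 / 2) with k | k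
  · exact seg m y.im m1 y2.2 (fun t ht => by
      rw [abs_of_nonpos (by linarith), abs_of_nonpos (by linarith [ht.2])]; linarith [ht.2])
      ⟨by linarith, le_rfl⟩ ⟨m, ⟨le_rfl, by linarith⟩, Or.inl (Or.inl ⟨y1, m1, m2⟩)⟩
  · exact seg y.im (1 - m) y2.1 (by linarith) (fun t ht => by
      rw [abs_of_nonneg (by linarith), abs_of_nonneg (by linarith [ht.1])]; linarith [ht.1])
      ⟨le_rfl, by linarith⟩ ⟨1 - m, ⟨by linarith, le_rfl⟩, Or.inr ⟨y1, by simpa, by simpa⟩⟩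

theorem mem_Fr {w : ℂ} (hw : w ∈ Xo δ) (w1 : w.re ∈ Ico (0 : ℝ) 1) (w2 : w.im ∈ Ico (0 : ℝ) 1) :
    w.re < δ ∨ 1 - δ < w.re ∨ w.im < δ ∨ 1 - δ < w.im := by
  rcases hw with k | k
  · exact (near_iff w1 k).imp_right Or.inl
  · exact Or.inr (Or.inr (near_iff w2 k))

theorem not_Xc {w : ℂ} (hw : w ∉ Xc δ') (w1 : w.re ∈ Ico (0 : ℝ) 1) (w2 : w.im ∈ Ico (0 : ℝ) 1) :
    w.re ∈ Ioo δ' (1 - δ') ∧ w.im ∈ Ioo δ' (1 - δ') := by
  have k : ∀ x ∈ Ico (0 : ℝ) 1, (¬ ∃ n : ℤ, |x - n| ≤ δ') → x ∈ Ioo δ' (1 - δ') := fun x hx hn =>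
    ⟨lt_of_not_ge fun k => hn ⟨0, by simpa [abs_of_nonneg hx.1] using k⟩,
      lt_of_not_ge fun k => hn ⟨1, by rw [Int.cast_one, abs_of_neg (by linarith [hx.2])]; linarith⟩⟩
  exact ⟨k _ w1 fun h => hw (Or.inl h), k _ w2 fun h => hw (Or.inr h)⟩

theorem Fr_not_Xc {z : ℂ} (hz : z ∈ Fr δ' δ) : z ∉ Xc δ' := fun h =>
  h.elim (far hz.1.1 hz.1.2) (far hz.2.1.1 hz.2.1.2)

/-- **HD 3** -/
theorem hd3Stmt : Hd3Stmt := by
  intro δ δ' h0 h1 h2
  set r := min ((δ - δ') / 4) (1 / 2 - δ) with hr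
  have r1 : r ≤ (δ - δ') / 4 := min_le_left _ _
  have r2 : r ≤ 1 / 2 - δ := min_le_right _ _
  set z₀ : ℂ := ⟨(δ + δ') / 2, 1 / 2⟩ with hz₀
  have hb : ∀ z ∈ Metric.closedBall z₀ r, z.re ∈ Ioo δ' δ ∧ δ ≤ z.im ∧ z.im ≤ 1 - δ := by
    intro z hz
    rw [mem_closedBall_iff_norm] at hz
    have a1 := abs_le.1 ((Complex.abs_re_le_norm _).trans hz)
    have a2 := abs_le.1 ((Complex.abs_im_le_norm _).trans hz)
    simp only [Complex.sub_re, Complex.sub_im, hz₀] at a1 a2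
    exact ⟨⟨by linarith, by linarith⟩, by linarith, by linarith⟩
  have hF : ∀ z ∈ Metric.closedBall z₀ r, z ∈ Fr δ' δ := fun z hz => by
    obtain ⟨a1, a2, a3⟩ := hb z hz
    exact ⟨⟨a1.1, by linarith [a1.2]⟩, ⟨by linarith, by linarith⟩, Or.inl a1.2⟩
  have hc : ∀ a < δ, IsPreconnected (Fr a δ \ Metric.closedBall z₀ r) := fun a ha =>
    Fr_conn ha h2 (fun z hz => ⟨(hb z hz).1.2, (hb z hz).2⟩) fun z hz w e1 e2 => by
      rw [mem_closedBall_iff_norm] at hz ⊢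
      refine le_trans (abs_le_of_sq_le_sq' ?_ (norm_nonneg _)).2 hz
      rw [Complex.sq_norm, Complex.sq_norm, Complex.normSq_apply, Complex.normSq_apply]
      simp only [Complex.sub_re, Complex.sub_im, hz₀, e1]
      have := sq_le_sq.2 e2
      nlinarith
  have nl : ∀ z ∈ Fr (-δ') δ \ Metric.closedBall z₀ r, ∀ y ∈ Metric.closedBall z₀ r, ¬ Lat z y := by
    intro z hz y hy l
    obtain ⟨⟨m, hm⟩, n, hn⟩ := lat_iff.1 l
    obtain ⟨a1, a2, a3⟩ := hb y hy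
    obtain rfl := int_zero (n := m) (by linarith [a1.1, hz.1.1.2]) (by linarith [a1.2, hz.1.1.1])
    obtain rfl := int_zero (n := n) (by linarith [hz.1.2.1.2]) (by linarith [hz.1.2.1.1])
    exact hz.2 (by rwa [show z = y from Complex.ext (by simp [hm]) (by simp [hn])])
  have sb : Metric.closedBall z₀ r ⊆ Xo δ := fun z hz => Fr_sub (by linarith) (hF z hz)
  refine ⟨z₀, r, lt_min (by linarith) (by linarith), fun z hz => ⟨sb hz, Fr_not_Xc (hF z hz)⟩,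
    fun R e h => ⟨conn_img h sb (diff_subset.trans (Fr_sub (by linarith))) (hc (-δ') (by linarith))
      (fun w hw w1 w2 k => ⟨⟨⟨by linarith [w1.1], by linarith [w1.2]⟩,
        ⟨by linarith [w2.1], by linarith [w2.2]⟩, mem_Fr hw w1 w2⟩, fun k' => k w k' (lat_refl w)⟩) nl,
      conn_img h (union_subset (Xc_sub h1) sb) (diff_subset.trans (Fr_sub (by linarith))) (hc δ' h1)
        (fun w hw w1 w2 k => ?_) fun z hz y hy l => ?_⟩⟩
  · obtain ⟨a1, a2⟩ := not_Xc (fun k' => k w (Or.inl k') (lat_refl w)) w1 w2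
    exact ⟨⟨a1, a2, mem_Fr hw w1 w2⟩, fun k' => k w (Or.inr k') (lat_refl w)⟩
  · rcases hy with hy | hy
    · exact Fr_not_Xc hz.1 (Xc_lat (lat_symm l) hy)
    · exact nl z ⟨⟨⟨by linarith [hz.1.1.1], by linarith [hz.1.1.2]⟩,
        ⟨by linarith [hz.1.2.1.1], by linarith [hz.1.2.1.2]⟩, hz.1.2.2⟩, hz.2⟩ y hy l

theorem exists_sq (hδ : 0 < δ) : ∃ σ, Sq δ σ := by
  obtain ⟨l, h1, h2, h3⟩ := Cyl58.exists_up_Iio (a := δ / 2) (b := δ) (by linarith)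
  have hl : ∀ x, l x < δ := fun x => by
    have : l x ∈ range l := ⟨x, rfl⟩
    rwa [h3] at this
  have hu : Cyl58.Up (l ∘ fun x => -l (-x)) univ :=
    h1.comp (h1.neg.mono fun _ _ => trivial) (mapsTo_univ _ _)
  refine ⟨_, hu.contDiff, fun r => (hu r trivial).2, fun x => abs_lt.2 ⟨?_, hl _⟩, fun x hx => ?_⟩
  · rcases le_total (-l (-x)) (δ / 2) with h | h
    · rw [comp_apply, h2 _ h]; linarith [hl (-x)]
    · have := h1.strictMono.monotone h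
      rw [h2 _ le_rfl] at this
      simp only [comp_apply]; linarith
  · have := abs_le.1 hx
    rw [comp_apply, h2 (-x) (by linarith), neg_neg, h2 x this.2]

theorem ld_sq {σ : ℝ → ℝ} (h : Sq δ σ) (z : ℂ) :
    IsLocalDiffeomorphAt 𝓘(ℝ, ℂ) 𝓘(ℝ, ℂ) ∞ (fun z : ℂ => (z.re : ℂ) + σ z.im * Complex.I) z := by
  have hd : HasDerivAt σ (deriv σ z.im) z.im := (h.sm.differentiable (by simp) _).hasDerivAt
  have hc := (h.pos z.im).ne'
  let L : ℂ ≃L[ℝ] ℂ := Complex.equivRealProdCLM.trans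
    (((ContinuousLinearEquiv.refl ℝ ℝ).prodCongr
      (ContinuousLinearEquiv.unitsEquivAut ℝ (Units.mk0 _ hc))).trans Complex.equivRealProdCLM.symm)
  refine Glue52.ld_of_fderiv isOpen_univ (mem_univ z) (ContDiff.contDiffOn ?_) L ?_
  · exact (Complex.ofRealCLM.contDiff.comp Complex.reCLM.contDiff).add
      ((Complex.ofRealCLM.contDiff.comp (h.sm.comp Complex.imCLM.contDiff)).mul contDiff_const)
  · have := (Complex.ofRealCLM.hasFDerivAt.comp z Complex.reCLM.hasFDerivAt).add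
      ((Complex.ofRealCLM.hasFDerivAt.comp z
        (hd.hasFDerivAt.comp z Complex.imCLM.hasFDerivAt)).mul_const Complex.I)
    refine this.congr_fderiv (ContinuousLinearMap.ext fun w => ?_)
    simp [L, Complex.ext_iff, Complex.equivRealProdCLM_symm_apply]

/-- **HD 1** -/
theorem hd1Stmt : Hd1Stmt := by
  intro R e δ δ' h h0 h1
  have h2 := h.lt
  refine ⟨isOpen_iff_mem_nhds.2 ?_, ?_, ?_, exists_sq h0, fun σ hσ => ?_⟩
  · rintro _ ⟨z, hz, rfl⟩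
    have k := h.ld z hz
    have k1 : Xo δ ∈ 𝓝 (k.localInverse (e z)) := by
      rw [k.localInverse_left_inv k.localInverse_mem_target]; exact (isOpen_Xo δ).mem_nhds hz
    filter_upwards [k.localInverse_eventuallyEq_right,
      k.localInverse_contMDiffAt.continuousAt.preimage_mem_nhds k1] with y e1 hy using ⟨_, hy, e1⟩
  · have cl : ∀ f : ℂ → ℝ, Continuous f → ∀ n : ℝ, IsClosed {z | |f z - n| ≤ δ'} := fun f hf n =>
      isClosed_le (by fun_prop) continuous_const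
    let Q : Set ℂ := Icc 0 1 ×ℂ Icc 0 1 ∩ ({z | |z.re - (0 : ℤ)| ≤ δ'} ∪ {z | |z.re - (1 : ℤ)| ≤ δ'} ∪
      ({z | |z.im - (0 : ℤ)| ≤ δ'} ∪ {z | |z.im - (1 : ℤ)| ≤ δ'}))
    have sQ : Q ⊆ Xc δ' := by
      rintro z ⟨-, (k | k) | k | k⟩
      exacts [Or.inl ⟨_, k⟩, Or.inl ⟨_, k⟩, Or.inr ⟨_, k⟩, Or.inr ⟨_, k⟩]
    have : e '' Xc δ' = e '' Q := by
      refine Subset.antisymm ?_ (image_mono sQ)
      rintro _ ⟨z, hz, rfl⟩
      obtain ⟨w, l, w1, w2⟩ := exists_red z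
      have hw := Xc_lat l hz
      refine ⟨w, ⟨⟨Ico_subset_Icc_self w1, Ico_subset_Icc_self w2⟩, ?_⟩,
        ((h.eq z (Xc_sub h1 hz) w (Xc_sub h1 hw)).2 l).symm⟩
      by_contra hn
      simp only [mem_union, mem_setOf_eq, not_or, not_le, Int.cast_zero, Int.cast_one, sub_zero] at hn
      rw [abs_of_nonneg w1.1, abs_of_nonneg w2.1, abs_of_neg (sub_neg.2 w1.2),
        abs_of_neg (sub_neg.2 w2.2)] at hn
      exact hw.elim (far hn.1.1 (by linarith [hn.1.2])) (far hn.2.1 (by linarith [hn.2.2]))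
    rw [this]
    exact ((isCompact_Icc.reProdIm isCompact_Icc).inter_right
      (((cl _ Complex.continuous_re _).union (cl _ Complex.continuous_re _)).union
        ((cl _ Complex.continuous_im _).union (cl _ Complex.continuous_im _)))).image_of_continuousOn
      ((contOn h).mono (sQ.trans (Xc_sub h1)))
  · refine conn_img h (Xc_sub h1) (S := Fr δ' δ \ ∅) (diff_subset.trans (Fr_sub (by linarith)))
      (Fr_conn h1 h2 (by simp) (by simp)) (fun w hw w1 w2 k => ?_)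
      fun z hz y hy l => Fr_not_Xc hz.1 (Xc_lat (lat_symm l) hy)
    obtain ⟨a1, a2⟩ := not_Xc (fun k' => k w k' (lat_refl w)) w1 w2
    exact ⟨⟨a1, a2, mem_Fr hw w1 w2⟩, notMem_empty _⟩
  have mc : ∀ z : ℂ, (z.re : ℂ) + σ z.im * Complex.I ∈ Xc δ' := fun z =>
    Or.inr ⟨0, by simpa using (hσ.lt z.im).le⟩
  have mo := fun z => Xc_sub h1 (mc z)
  have sm : StrictMono σ := strictMono_of_deriv_pos hσ.pos
  have an : An' (hA e σ) := by
    refine ⟨fun z => (ld_sq hσ z).comp _ _ (h.ld _ (mo z)), fun z w => ?_⟩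
    rw [hA, hA, h.eq _ (mo z) _ (mo w), lat_iff]
    constructor
    · rintro ⟨⟨m, hm⟩, n, hn⟩
      simp only [Complex.add_re, Complex.add_im, Complex.ofReal_re, Complex.ofReal_im,
        Complex.mul_re, Complex.mul_im, Complex.I_re, Complex.I_im] at hm hn
      have a1 := abs_lt.1 (hσ.lt z.im)
      have a2 := abs_lt.1 (hσ.lt w.im)
      obtain rfl := int_zero (n := n) (by linarith) (by linarith)
      exact ⟨m, Complex.ext (by simpa using hm) (by simpa using sm.injective (by simpa using hn))⟩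
    · rintro ⟨n, rfl⟩
      exact ⟨⟨n, by simp⟩, 0, by simp⟩
  have σ0 : σ 0 = 0 := hσ.id 0 (by simp; linarith)
  have hdel : ∀ ε, 0 < ε → ε ≤ δ' / 2 → ∀ z ∈ Xo δ, del (hA e σ) ε (e z) = dz ε z := by
    intro ε hε hε' z hz
    have l : Lat z ⟨z.re, z.im - round z.im⟩ := lat_iff.2 ⟨⟨0, by simp⟩, -round z.im, by
      push_cast; rfl⟩
    have hz' := Xo_lat l hz
    have hr := abs_sub_round z.im
    rw [(h.eq _ hz _ hz').2 l, dz]
    by_cases k : |z.im - round z.im| ≤ δ' / 2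
    · have : e ⟨z.re, z.im - round z.im⟩ = hA e σ ⟨z.re, z.im - round z.im⟩ := by
        rw [hA, hσ.id _ k]; congr 1; apply Complex.ext <;> simp
      rw [this, del_app an]
    · rw [exp_stp_far hε (by linarith [not_le.1 k])]
      refine del_off an hε ?_
      rintro ⟨w, hw, e1⟩
      obtain ⟨-, n, hn⟩ := lat_iff.1 ((h.eq _ (mo w) _ hz').1 e1)
      have hw' : |w.im| ≤ δ' / 2 := le_trans hw hε'
      rw [hσ.id _ hw'] at hn
      simp only [Complex.add_im, Complex.ofReal_re, Complex.ofReal_im,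
        Complex.mul_im, Complex.I_re, Complex.I_im] at hn
      have a1 := abs_le.1 hw'
      have a2 := abs_le.1 hr
      obtain rfl := int_zero (n := n) (by linarith) (by linarith)
      exact k (by rw [hn]; simpa using hw')
  refine ⟨an, by rintro _ ⟨z, rfl⟩; exact ⟨_, mc z, rfl⟩, ?_, fun ε hε hε' => ⟨hdel ε hε hε', ?_⟩⟩
  · have : core (hA e σ) = e '' {z | z.im = 0} := by
      ext x; constructor
      · rintro ⟨t, rfl⟩; exact ⟨t, by simp, by simp [hA, σ0]⟩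
      · rintro ⟨z, hz, rfl⟩
        exact ⟨z.re, by
          simp only [hA]; congr 1; apply Complex.ext <;> simp [σ0, show z.im = 0 from hz]⟩
    rw [this]
    have hp := h.pos
    refine conn_img h (fun z hz => Or.inr ⟨0, by simpa [show z.im = 0 from hz] using hp⟩)
      (S := Ioo (-δ) (1 + δ) ×ℂ Ioo 0 δ ∪ Ioo (-δ) δ ×ℂ Ioo 0 1 ∪
        Ioo (-δ) (1 + δ) ×ℂ Ioo (1 - δ) 1 ∪ Ioo (1 - δ) (1 + δ) ×ℂ Ioo 0 1) ?_ ?_
      (fun w hw w1 w2 k => ?_) ?_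
    · rintro z (((k | k) | k) | k)
      · exact Or.inr ⟨0, abs_lt.2 ⟨by simp; linarith [k.2.1], by simpa using k.2.2⟩⟩
      · exact Or.inl ⟨0, abs_lt.2 ⟨by simpa using k.1.1, by simpa using k.1.2⟩⟩
      · exact Or.inr ⟨1, abs_lt.2 ⟨by simp; linarith [k.2.1], by simp; linarith [k.2.2]⟩⟩
      · exact Or.inl ⟨1, abs_lt.2 ⟨by simp; linarith [k.1.1], by simp; linarith [k.1.2]⟩⟩
    · refine IsPreconnected.union ⟨1, δ / 2⟩ (Or.inl (Or.inl (bx ?_ ?_ ?_ ?_))) (bx ?_ ?_ ?_ ?_)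
        (IsPreconnected.union ⟨0, 1 - δ / 2⟩ (Or.inr (bx ?_ ?_ ?_ ?_)) (bx ?_ ?_ ?_ ?_)
          (IsPreconnected.union ⟨0, δ / 2⟩ (bx ?_ ?_ ?_ ?_) (bx ?_ ?_ ?_ ?_) (conv_box _ _ _ _)
            (conv_box _ _ _ _)) (conv_box _ _ _ _)) (conv_box _ _ _ _) <;> linarith
    · have w0 : 0 < w.im := lt_of_le_of_ne w2.1 fun k' => k w k'.symm (lat_refl w)
      have w3 : w.re ∈ Ioo (-δ) (1 + δ) := ⟨by linarith [w1.1], by linarith [w1.2]⟩
      rcases mem_Fr hw w1 w2 with q | q | q | q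
      · exact Or.inl (Or.inl (Or.inr ⟨⟨w3.1, q⟩, w0, w2.2⟩))
      · exact Or.inr ⟨⟨q, w3.2⟩, w0, w2.2⟩
      · exact Or.inl (Or.inl (Or.inl ⟨w3, w0, q⟩))
      · exact Or.inl (Or.inr ⟨w3, q, w2.2⟩)
    · intro z hz y hy l
      obtain ⟨-, n, hn⟩ := lat_iff.1 l
      have : z.im ∈ Ioo (0 : ℝ) 1 := by
        rcases hz with ((k | k) | k) | k
        exacts [⟨k.2.1, by linarith [k.2.2]⟩, k.2, ⟨by linarith [k.2.1], k.2.2⟩, k.2]
      rw [show y.im = 0 from hy] at hn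
      obtain rfl := int_zero (n := n) (by linarith [this.2]) (by linarith [this.1])
      simp at hn; linarith [this.1]
  · have mt : ∀ t : ℝ, (t : ℂ) * Complex.I ∈ Xo δ := fun t => Or.inl ⟨0, by simpa using h.pos⟩
    have cf : Continuous ((fun s => stp ε (s - 1 / 2) - s) ∘ Int.fract) := by
      refine ContinuousOn.comp_fract'' (Continuous.continuousOn
        (((stp_cd ε).continuous.comp (by fun_prop)).sub continuous_id)) ?_
      show stp ε (0 - 1 / 2) - 0 = stp ε (1 - 1 / 2) - 1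
      rw [stp_lo hε (by linarith), stp_hi hε (by linarith)]; ring
    have fr : ∀ t : ℝ, Int.fract (t + 1 / 2) = t + 1 / 2 - round t := fun t => by
      rw [round_eq]; rfl
    refine ⟨(contOn h).comp_continuous (by fun_prop) mt,
      fun t => ((h.eq _ (mt t) _ (mt _)).2 ⟨0, 1, by push_cast; ring⟩).symm,
      fun t => 2 * Real.pi * (stp ε (t - round t) + round t), ?_, fun t => ?_, fun t => ?_⟩
    · have : Continuous fun t : ℝ => 2 * Real.pi * (t + 1 / 2 +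
          ((fun s => stp ε (s - 1 / 2) - s) ∘ Int.fract) (t + 1 / 2)) :=
        continuous_const.mul ((by fun_prop : Continuous fun t : ℝ => t + 1 / 2).add
          (cf.comp (by fun_prop)))
      refine this.congr fun t => ?_
      simp only [comp_apply, fr]
      rw [show t + 1 / 2 - round t - 1 / 2 = t - round t by ring]; ring
    · beta_reduce
      rw [hdel ε hε hε' _ (mt t), dz, mul_add, Circle.exp_add, mul_comm _ (round t : ℝ),
        Circle.exp_int_mul_two_pi, mul_one]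
      simp
    · simp only [round_add_one]
      push_cast
      rw [add_sub_add_right_eq_sub]; ring

end Crest.Agent.X212.Hd34
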