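import Crest.Agent.X212.Kh11.Bas
import Crest.Agent.X212.Cut21.Brg
import Crest.Agent.X212.Hp13.TraD

/-!
# X212 / Hd34 (helper34): the leaves PC and IC of P1
-/

set_option autoImplicit false
set_option linter.unusedSectionVars false

open Finset Classical

noncomputable section

namespace Crest.Agent.X212.Hd34.Pc

open Hp13 hiding sub_cl cl_low cl_mono dp_iff om_low coc_iff exOn_pb exOn_add exOn_neg exOn_congr
open Hk
open Alg36 (Om)
open Cut21 (tp top_tp le_tp mem_tp)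

variable {P : Type} [PartialOrder P] [Fintype P] {X U Y H G V : Set P} {w : P → P → ℤ}
  {D : Set (Ch P)} {x y : P} {c d e : Ch P}

theorem pr_le (l : x ≤ y) (hx : x ∈ c.1) (hy : y ∈ c.1) : Ch.pr x y l ≤ c :=
  insert_subset hx (singleton_subset_iff.2 hy)

theorem pc_cases (w : P → P → ℤ) (D : Set (Ch P)) (x y : P) :
    pc w D x y = 0 ∨ (pc w D x y = 1 ∧ 0 < w x y ∧ ∃ c ∈ D, x ∈ c.1 ∧ y ∈ c.1) := by
  unfold pc
  split_ifs with h
  exacts [.inr ⟨rfl, h⟩, .inl rfl]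

theorem pc_one (h : 0 < w x y) (hc : c ∈ D) (hx : x ∈ c.1) (hy : y ∈ c.1) : pc w D x y = 1 :=
  if_pos ⟨h, c, hc, hx, hy⟩

theorem pc_eq (hw : S1 X w) (hc : c ∈ D) (ht : c.top ∈ X) (hx : x ∈ c.1) (hy : y ∈ c.1)
    (l : x ≤ y) : pc w D x y = w x y := by
  rcases hw.cases ⟨_, ht, Ch.le_top hy⟩ l with k | k
  · rw [k]; exact if_neg fun n => n.1.ne' k
  · rw [k]; exact pc_one (by omega) hc hx hy

section pc

variable (hU : Rg U) (hw : S1 X w) (hD : IsCmp (CA (X ∩ U) w) D)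
  (h : ∀ c ∈ D, ∀ e, e ≤ c → 0 < w e.bot e.top → ∀ u ∈ U, e.top ≤ u → u ∈ X)
include hU hw hD h

/-- all cells over a face of `D` that sees the jump are in `D` -/
theorem ovr (hc : c ∈ D) (l : e ≤ c) (k : 0 < w e.bot e.top) (l' : e ≤ d) (hd : d.top ∈ U) :
    d ∈ D := by
  have s : {d | e ≤ d ∧ d.top ∈ U ∧ True} ⊆ CA (X ∩ U) w := fun d j =>
    have := h c hc e l k _ j.2.1 (Ch.top_mono j.1)
    ⟨⟨this, j.2.1⟩, hw.up (sub_cl this) j.1 k⟩
  have := (Pt30.ctr_over (fun _ => True) trivial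
    (hU.ctr ⟨_, (hD.sub hc).1.2, Ch.top_mono l⟩)).conn c ⟨l, (hD.sub hc).1.2, trivial⟩ d
      ⟨l', hd, trivial⟩
  rw [hD.eq hc]
  exact ⟨s ⟨l', hd, trivial⟩, this.mono s⟩

theorem ovr' (l : x ≤ y) (k : pc w D x y ≠ 0) (hx : x ∈ d.1) (hy : y ∈ d.1) (hd : d.top ∈ U) :
    d ∈ D :=
  let ⟨_, k, _, hc, a, b⟩ := (pc_cases w D x y).resolve_left k
  ovr hU hw hD h hc (pr_le l a b) (by simpa using k) (pr_le l hx hy) hd

theorem s1_pc : S1 U (pc w D) := by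
  refine ⟨fun x _ y _ v ⟨u, hu, l⟩ l1 l2 => ?_, fun x y _ _ => ?_, fun x y _ _ => ?_⟩
  · let d := tp (tp (Ch.pr x y l1) v (by simpa using l2)) u (by simpa using l)
    have mx : x ∈ d.1 := by simp [d]
    have my : y ∈ d.1 := by simp [d]
    have mv : v ∈ d.1 := by simp [d]
    have mu : d.top ∈ U := by simpa [d] using hu
    by_cases k : d ∈ D
    · have t := (hD.sub k).1.1
      rw [pc_eq hw k t mx mv (l1.trans l2), pc_eq hw k t mx my l1, pc_eq hw k t my mv l2]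
      exact hw.add ⟨_, t, Ch.le_top mv⟩ l1 l2
    · rw [by_contra fun n => k (ovr' hU hw hD h (l1.trans l2) n mx mv mu),
        by_contra fun n => k (ovr' hU hw hD h l1 n mx my mu),
        by_contra fun n => k (ovr' hU hw hD h l2 n my mv mu), add_zero]
  · rcases pc_cases w D x y with k | k
    exacts [k.ge, by omega]
  · rcases pc_cases w D x y with k | k
    exacts [by omega, k.1.le]

theorem ca_pc : CA U (pc w D) = D := Set.ext fun c =>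
  ⟨fun k => ovr' hU hw hD h c.bot_le_top k.2.ne' c.bot_mem c.top_mem k.1, fun k =>
    ⟨(hD.sub k).1.2, by rw [pc_one (hD.sub k).2 k c.bot_mem c.top_mem]; exact one_pos⟩⟩

theorem td_pc (he : eu D = 1) (hn : ∃ c ∈ D, ∃ e, e ≤ c ∧ 0 < w e.bot e.top ∧ e.top ∉ U) :
    TD U (pc w D) := by
  obtain ⟨c, hc, e, l, k, n⟩ := hn
  refine ⟨s1_pc hU hw hD h, (ca_pc hU hw hD h).symm ▸ hD.conn,
    by rw [Cut21.chi_ca hU (s1_pc hU hw hD h), ca_pc hU hw hD h, he], e,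
    (all_low (om_low hU.up)).2 ⟨n, _, (hD.sub hc).1.2, Ch.top_mono l⟩, ?_⟩
  rw [pc_one k hc (l e.bot_mem) (l e.top_mem)]
  exact one_pos

end pc

/-- **PC** -/
theorem pcStmt : PcStmt := fun _ _ _ _ _ _ _ hU _ hw hD h =>
  ⟨s1_pc hU hw hD h, ca_pc hU hw hD h, td_pc hU hw hD h⟩

/-! ### levels -/

section lev

variable {t : St} {f : t.P → P}

theorem tw_ind (h : Tw P t f) {J : ∀ t : St, (t.P → P) → Prop} (h0 : J (lv0 P) id)
    (h1 : ∀ t f, Tw P t f → J t f → J t.sd (f ∘ Ch.top)) : J t f :=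
  Desc.rec (s := lv0 P) (motive := fun t f _ => J t f) h0 (fun d ih => h1 _ _ d ih) h

theorem tw_rg (h : Tw P t f) (hX : Rg X) : Rg (f ⁻¹' X) :=
  tw_ind h (J := fun _ f => Rg (f ⁻¹' X)) hX fun _ _ _ ih => rg_sd ih

theorem tw_cl (h : Tw P t f) (X : Set P) : cl (f ⁻¹' X) = f ⁻¹' cl X :=
  tw_ind h (J := fun _ f => cl (f ⁻¹' X) = f ⁻¹' cl X) rfl fun _ _ _ ih =>
    cl_sd.trans (congrArg (Ch.top ⁻¹' ·) ih)

theorem tw_om (h : Tw P t f) (X : Set P) : Om (f ⁻¹' X) = f ⁻¹' Om X :=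
  Set.ext fun x => and_congr_right fun _ => Set.ext_iff.1 (tw_cl h X) x

theorem tw_mono (h : Tw P t f) : Monotone f := (Desc.ce h).mono

theorem tw_mfIn (h : Tw P t f) (hH : IsLowerSet H) (k : MfIn H X) : MfIn (f ⁻¹' H) (f ⁻¹' X) :=
  tw_ind h (J := fun _ f => MfIn (f ⁻¹' H) (f ⁻¹' X)) k fun _ _ d ih =>
    mfIn_sd (hH.preimage (tw_mono d)) ih

theorem tw_ctr (h : Tw P t f) (k : Ctr X) : Ctr (f ⁻¹' X) := ((Desc.ce h).ws_pre X).ctr_iff.2 k

end lev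

/-! ### the two sides of a member -/

/-- `W` and `W'` are the sides of `G` in `Y` -/
structure Sd (Y W G W' : Set P) : Prop where
  up : IsUpperSet W
  up' : IsUpperSet W'
  cov : ∀ y ∈ Y, y ∈ W ∨ y ∈ G ∨ y ∈ W'
  dj : Disjoint W W'
  dg : Disjoint W G
  dg' : Disjoint W' G

theorem Sd.symm (h : Sd Y U G V) : Sd Y V G U :=
  ⟨h.up', h.up, fun y hy => by have := h.cov y hy; tauto, h.dj.symm, h.dg', h.dg⟩

theorem Sd.pre {Q : Type} [PartialOrder Q] [Fintype Q] {f : Q → P} (h : Sd Y U G V)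
    (hf : Monotone f) : Sd (f ⁻¹' Y) (f ⁻¹' U) (f ⁻¹' G) (f ⁻¹' V) :=
  ⟨h.up.preimage hf, h.up'.preimage hf, fun y hy => h.cov _ hy, h.dj.preimage f, h.dg.preimage f,
    h.dg'.preimage f⟩

theorem Sd.rg (h : Sd Y U G V) (hY : Rg Y) (hs : U ⊆ Y) (hG : IsLowerSet G) (hGY : G ⊆ Y)
    (tv : ∀ x ∈ G, Ctr {y | y ∈ U ∧ x ≤ y}) : Rg U := by
  refine rg_of h.up (hY.mf.mono hs) fun x ⟨n, a, ha, l⟩ => ?_
  by_cases k : x ∈ Y
  · exact tv x ((h.cov x k).resolve_left n |>.resolve_right fun j =>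
      Set.disjoint_left.1 h.dj ha (h.up' l j))
  · have c := hY.ctr ⟨a, hs ha, l⟩
    convert c using 3 with y
    refine ⟨fun j => ⟨hs j.1, j.2⟩, fun j => ⟨?_, j.2⟩⟩
    refine (c.conn a ⟨hs ha, l⟩ y j).ind ha fun p hp q hq m => ⟨h.up m, fun i => ?_⟩
    exact (h.cov p hp.1).elim id fun o => o.elim (fun o => absurd (hGY (hG hp.2 o)) k)
      fun o => absurd (h.up' m o) (Set.disjoint_left.1 h.dj i)

theorem inn_side (h : Sd Y U G V) (hU : Rg U) (hG : IsLowerSet G) (hX : IsUpperSet X) (hs : X ⊆ Y)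
    (hw : S1 X w) (hD : Inn G X w D) (hc : c ∈ D) (ht : c.top ∈ U) :
    TD U (pc w D) ∧ On U G (pc w D) := by
  have s : CA (X ∩ U) w ⊆ CA X w \ Cv G w := fun d k =>
    ⟨⟨k.1.1, k.2⟩, fun n => Set.disjoint_left.1 h.dg k.1.2 (n.1 _ d.top_mem)⟩
  have cl : ∀ a ∈ CA (X ∩ U) w, ∀ b ∈ CA X w \ Cv G w, Cm a b → b ∈ CA (X ∩ U) w :=
    fun a ha b hb m => ⟨⟨hb.1.1, m.elim (fun m => h.up (Ch.top_mono m) ha.1.2) fun m =>
      (h.cov _ (hs hb.1.1)).elim id fun o => o.elim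
        (fun o => absurd ((mem_cv hG).2 ⟨o, hb.1.2⟩) hb.2) fun o =>
          absurd (h.up' (Ch.top_mono m) o) (Set.disjoint_left.1 h.dj ha.1.2)⟩, hb.1.2⟩
  have m : c ∈ CA (X ∩ U) w := ⟨⟨(hD.cmp.sub hc).1.1, ht⟩, (hD.cmp.sub hc).1.2⟩
  have k : IsCmp (CA (X ∩ U) w) D := ⟨c, m, (hD.cmp.eq hc).trans (Set.ext fun d =>
    ⟨fun j => have := Rch.in_clopen cl m j.2; ⟨this.mem m, this⟩, fun j => ⟨s j.1, j.2.mono s⟩⟩)⟩
  obtain ⟨c', hc', e, he, l⟩ := hD.ne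
  refine ⟨td_pc hU hw k (fun c a e b j u _ i => hX i (hD.int c a e b j)) hD.eu
    ⟨c', hc', e, l, he.2, fun n => Set.disjoint_left.1 h.dg n (he.1 _ e.top_mem)⟩,
    fun x _ y hy l => (pc_cases w D x y).resolve_right fun ⟨_, j, d, a, b, i⟩ => ?_⟩
  have := hD.int d a _ (pr_le l b i) (by simpa using j)
  rw [Ch.top_pr] at this
  exact Set.disjoint_left.1 h.dj (k.sub a).1.2 (h.up' (Ch.le_top i)
    (((h.cov y (hs this)).resolve_left hy.1.1).resolve_left hy.2))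

theorem icP_mem {R : Type} [PartialOrder R] {car : P → R} (hY : Amb Y) (h : Mem car Y U G V) :
    IcP G Y := fun t f tw X w D hX hs hw hD => by
  have s : Sd Y U G V := ⟨h.two.up, h.two.up', h.two.cov, h.two.dj,
    Set.disjoint_left.2 fun _ a b => h.two.bd.not b a, h.two.dg⟩
  have r : Rg U := s.rg hY.toRg h.two.sub h.two.bd.low h.sub fun x hx => by
    simpa using h.two.tv Set.univ isLowerSet_univ x ⟨hx, h.sub hx⟩ trivial
  have r' : Rg V := s.symm.rg hY.toRg h.two.sub' h.two.bd.low h.sub fun x hx => by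
    simpa using h.two.tv' Set.univ isLowerSet_univ x ⟨hx, h.sub hx⟩ trivial
  have m := tw_mono tw
  have g := h.two.bd.low.preimage m
  obtain ⟨c, hc⟩ := hD.cmp.ne
  have k := hD.cmp.sub hc
  refine Ines.bds ?_ (Set.preimage_mono h.sub)
  rcases h.two.cov _ (hs k.1.1) with j | j | j
  · obtain ⟨a, b⟩ := inn_side (s.pre m) (tw_rg tw r) g hX hs hw hD hc j
    exact h.inc t f tw _ a b
  · exact absurd ((mem_cv g).2 ⟨j, k.1.2⟩) k.2
  · obtain ⟨a, b⟩ := inn_side (s.symm.pre m) (tw_rg tw r') g hX hs hw hD hc j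
    exact h.inc' t f tw _ a b

theorem ic_disc (hC : CircStmt) (hX : IsUpperSet X) (hH : IsLowerSet H) (hm : MfIn H X)
    (hc : Ctr (H ∩ X)) (hn : ∃ x ∈ H, ∃ y ∈ H ∩ X, x ∉ X ∧ x ≤ y) : IC H X :=
  fun t f tw w hw hf hk => by
    have m := tw_mono tw
    have s : S1 (f ⁻¹' X) w := hw.elim (·.toS1) (·.toS1)
    rw [Set.preimage_inter, ← tw_cl tw, ← s.cv_empty Set.inter_subset_right]
    rw [Set.preimage_inter, ← tw_om tw] at hf
    by_contra n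
    obtain ⟨x, hx, y, hy, a, l⟩ := hn
    obtain ⟨x', rfl⟩ := (Desc.ce tw).surj x
    obtain ⟨y', l', rfl⟩ := Sup43.desc_up tw l
    refine hC _ _ _ w _ (hX.preimage m) (hH.preimage m) (tw_mfIn tw hH hm) (tw_ctr (X := H ∩ X) tw hc)
      ⟨x', hx, y', hy, a, l'⟩ s (Set.nonempty_iff_ne_empty.2 n) (Alg36.clo_self _) (fun c k => ?_) hk
    by_contra j
    have lo := (hH.preimage m).inter (om_low (hX.preimage m))
    have := k.1 _ c.top_mem
    exact k.2.ne' (hf _ (lo c.bot_le_top ⟨this.1, j, this.2⟩) _ ⟨this.1, j, this.2⟩ c.bot_le_top)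

theorem ic_of (hI : InnStmt) (hC : CapStmt) (hX : Sub Y X) (hH : IsLowerSet H) (hm : MfIn H Y)
    (hd : Disjoint (H ∩ Y) (Om X)) (h : IcP H Y) : IC H X := fun t f tw w hw hf hk => by
  have m := tw_mono tw
  have s : S1 (f ⁻¹' X) w := hw.elim (·.toS1) (·.toS1)
  have r := tw_rg tw hX.toRg
  have lo := hH.preimage m
  have mf : MfIn (f ⁻¹' H) (f ⁻¹' X) := (tw_mfIn tw hH hm).mono fun _ k => hX.sub k.2
  rw [Set.preimage_inter, ← tw_cl tw]
  rw [Set.preimage_inter, ← tw_om tw] at hf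
  by_contra n
  obtain ⟨D, hD⟩ := hI _ _ _ w r lo mf hw hf n
  obtain ⟨Z, z1, z2, z3, z4⟩ := h t f tw _ w D r.up (Set.preimage_mono hX.sub) s hD
  obtain ⟨c, hc, e, he, l⟩ := hD.ne
  have p1 := pc_one he.2 hc (l e.bot_mem) (l e.top_mem)
  have dn : ∀ a ∈ Z, ∀ b ∈ f ⁻¹' X, a ≤ b → a ∈ f ⁻¹' X := fun a ha b hb k => by_contra fun j =>
    Set.disjoint_left.1 hd ⟨z1 ha, z2 ha⟩ ⟨j, f b, hb, m k⟩
  have et := hD.int c hc e l he.2
  obtain ⟨z, za, zb⟩ : ∃ z ∈ Z, z ∈ f ⁻¹' X := by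
    by_cases k : e.top ∈ Z
    · exact ⟨_, k, et⟩
    · have : e.bot ∈ Z := by_contra fun j => by
        have := (z4.iff (he.1 _ e.bot_mem) (he.1 _ e.top_mem) e.bot_le_top).2 (iff_of_false j k)
        omega
      exact ⟨_, this, dn _ this _ et e.bot_le_top⟩
  refine hC _ _ _ w (pc w D) r.up lo mf s ⟨Z, z1, fun y hy => (z3.conn z za y hy).ind zb
    fun a ha b _ k => ⟨r.up k, fun j => dn a ha b j k⟩, z3, z4⟩ (fun k => ?_) (fun x _ y _ k => ?_) hk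
  · have := k _ (he.1 _ e.bot_mem) _ (he.1 _ e.top_mem) e.bot_le_top
    omega
  · refine (pc_cases w D x y).imp id fun ⟨a, b, d, d1, _, d2⟩ => ⟨a, ?_⟩
    have := s.le1 x y ⟨_, (hD.cmp.sub d1).1.1, Ch.le_top d2⟩ k
    omega

/-- **IC** -/
theorem icStmt (hI : InnStmt) (hC : CapStmt) (hO : CircStmt) : IcStmt := fun _ _ _ =>
  ⟨fun _ _ _ _ _ _ _ => icP_mem, fun _ _ => ic_disc hO, fun _ _ _ => ic_of hI hC⟩

end Crest.Agent.X212.Hd34.Pc
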