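import Crest.Agent.X212.St29.Lf

/-!
# X212 / Hd34 (helper34): the leaves I1 and I2 of `St29`
-/

set_option autoImplicit false
set_option linter.unusedSectionVars false

open Set Filter Topology Function Classical
open scoped ContDiff Real
open Crest.Agent.X212.Sm10 Crest.Agent.X212.Hp13 Crest.Agent.X212.Mol27 Crest.Agent.X212.Alg36
open Crest.Agent.X212.St29

noncomputable section

namespace Crest.Agent.X212.Hd34.S29

variable {E : Type} [NormedAddCommGroup E] [NormedSpace ℝ E] {P : Type} [PartialOrder P] [Fintype P]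
  {A T S : Set P} {z : P → P → ℤ} {δ a b c : ℝ} {L : LC E A δ} {ν ν' : P → ℝ} {y p : E}
  {x₀ x₁ x₂ b₀ q : P}

/-- weights supported in `T` -/
structure On (T : Set P) (ν : P → ℝ) : Prop where
  nn : ∀ s, 0 ≤ ν s
  sum : ∑ s, ν s = 1
  sp : ∀ s, ν s ≠ 0 → s ∈ T

/-- a chain -/
def Chn (T : Set P) : Prop := ∀ s ∈ T, ∀ t ∈ T, Cm s t

theorem On.isWt (h : On T ν) (hT : Chn T) : IsWt ν :=
  isWt_of h.nn h.sum fun s t hs ht => hT s (h.sp s hs) t (h.sp t ht)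

theorem chn_lam (hy : y ∈ L.U) : Chn (support (L.lam y)) := fun _ hs _ ht => (L.wt y hy).cm hs ht

theorem on_lam (hy : y ∈ L.U) : On (support (L.lam y)) (L.lam y) :=
  ⟨(L.wt y hy).nonneg, (L.wt y hy).sum, fun _ h => h⟩

theorem chn3 (h1 : Cm x₀ x₁) (h2 : Cm x₁ x₂) (h3 : Cm x₀ x₂) : Chn {x₀, x₁, x₂} := by
  rintro s (rfl | rfl | rfl) t (rfl | rfl | rfl)
  exacts [Cm.rfl, h1, h3, h1.symm, Cm.rfl, h2, h3.symm, h2.symm, Cm.rfl]

/-- weights on three vertices -/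
def w3 (x₀ x₁ x₂ : P) (α β γ : ℝ) : P → ℝ := α • e x₀ + β • e x₁ + γ • e x₂

theorem e_nn (s t : P) : 0 ≤ e s t := by rw [e_apply]; split_ifs <;> norm_num

theorem wS_w3 (S : Set P) (x₀ x₁ x₂ : P) (α β γ : ℝ) :
    wS S (w3 x₀ x₁ x₂ α β γ) = α * io S x₀ + β * io S x₁ + γ * io S x₂ := by
  simp only [w3, wS_add, wS_smul, wS_e]

theorem on_w3 {α β γ : ℝ} (h0 : x₀ ∈ T) (h1 : x₁ ∈ T) (h2 : x₂ ∈ T) (hα : 0 ≤ α) (hβ : 0 ≤ β)
    (hγ : 0 ≤ γ) (h : α + β + γ = 1) : On T (w3 x₀ x₁ x₂ α β γ) := by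
  refine ⟨fun s => ?_, ?_, fun s hs => ?_⟩
  · exact add_nonneg (add_nonneg (mul_nonneg hα (e_nn _ _)) (mul_nonneg hβ (e_nn _ _)))
      (mul_nonneg hγ (e_nn _ _))
  · simp [w3, Finset.sum_add_distrib, ← Finset.mul_sum, h]
  · by_contra n
    have a0 : s ≠ x₀ := fun e => n (e ▸ h0)
    have a1 : s ≠ x₁ := fun e => n (e ▸ h1)
    have a2 : s ≠ x₂ := fun e => n (e ▸ h2)
    simp [w3, e_apply, a0, a1, a2] at hs

theorem le_w3₀ {α β γ : ℝ} (hβ : 0 ≤ β) (hγ : 0 ≤ γ) : α ≤ w3 x₀ x₁ x₂ α β γ x₀ := by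
  have h1 := mul_nonneg hβ (e_nn x₁ x₀)
  have h2 := mul_nonneg hγ (e_nn x₂ x₀)
  have h3 : e x₀ x₀ = 1 := by simp [e_apply]
  show α ≤ α * e x₀ x₀ + β * e x₁ x₀ + γ * e x₂ x₀
  rw [h3]; linarith

theorem le_w3₂ {α β γ : ℝ} (hα : 0 ≤ α) (hβ : 0 ≤ β) : γ ≤ w3 x₀ x₁ x₂ α β γ x₂ := by
  have h1 := mul_nonneg hα (e_nn x₀ x₂)
  have h2 := mul_nonneg hβ (e_nn x₁ x₂)
  have h3 : e x₂ x₂ = 1 := by simp [e_apply]
  show γ ≤ α * e x₀ x₂ + β * e x₁ x₂ + γ * e x₂ x₂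
  rw [h3]; linarith

/-- the segment -/
def sg (y v : E) (τ : ℝ) : E := y + τ • v

theorem sg_cont (y v : E) : Continuous (sg y v) := by unfold sg; fun_prop

theorem sg_zero (y v : E) : sg y v 0 = y := by simp [sg]

theorem sg_one (X : P → E) (ν ν' : P → ℝ) : sg (pt X ν) (pt X (ν' - ν)) 1 = pt X ν' := by
  simp [sg, pt_sub]

/-- what is known on a PL segment -/
structure Sg (L : LC E A δ) (ν ν' : P → ℝ) (y : E) : Prop where
  mem : y ∈ L.U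
  big : ∀ q, δ ≤ ν q → δ ≤ ν' q → δ ≤ L.lam y q
  le : ∀ S r, wS S ν ≤ r → wS S ν' ≤ r → L.w S y ≤ r + Fintype.card P * δ
  ge : ∀ S r, r ≤ wS S ν → r ≤ wS S ν' → r - Fintype.card P * δ ≤ L.w S y

theorem sg_pl (L : LC E A δ) (hT : Chn T) (h : On T ν) (h' : On T ν') (k : wS Aᶜ ν ≤ 1 / 6)
    (k' : wS Aᶜ ν' ≤ 1 / 6) {τ : ℝ} (hτ : τ ∈ Icc (0 : ℝ) 1) :
    Sg L ν ν' (sg (pt L.X ν) (pt L.X (ν' - ν)) τ) := by
  obtain ⟨r1, r2⟩ := L.real_seg (h.isWt hT) (h'.isWt hT)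
    (fun s t hs ht => hT s (h.sp s hs) t (h'.sp t ht)) k k' hτ
  refine ⟨r1, fun q g g' => ?_, fun S r g g' => ?_, fun S r g g' => ?_⟩
  · rw [sg, r2]
    simp only [Pi.add_apply, Pi.smul_apply, Pi.sub_apply, smul_eq_mul]
    nlinarith [hτ.1, hτ.2]
  · have := LC.w_le r1 S
    rw [r2, wS_add, wS_smul, wS_sub] at this
    rw [sg]
    nlinarith [hτ.1, hτ.2]
  · have := LC.le_w r1 S
    rw [r2, wS_add, wS_smul, wS_sub] at this
    rw [sg]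
    nlinarith [hτ.1, hτ.2]

theorem not_op (hA : IsUpperSet A) (q : P) : q ∉ Op A := fun ⟨h, _, ha, k⟩ => h (hA k ha)

theorem p_zero (hA : IsUpperSet A) (y : E) : L.p y = 0 := wS_zero fun q h => absurd h (not_op hA q)

theorem mem_SP (hA : IsUpperSet A) : q ∈ SP A z b₀ ↔ q ∈ A ∧ b₀ ≤ q ∧ 0 < z b₀ q :=
  ⟨fun h => h.elim (fun h => absurd h (not_op hA q)) id, .inr⟩

theorem mem_SM : q ∈ SM A z b₀ ↔ q ∈ Om A ∨ (q ∈ A ∧ q ≤ b₀ ∧ 0 < z q b₀) := Iff.rfl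

theorem not_SP_of_le (hA : IsUpperSet A) (hz : Zc A z) (hb : b₀ ∈ A) (h : q ≤ b₀) : q ∉ SP A z b₀ :=
  fun k => by
    obtain ⟨-, k1, k2⟩ := (mem_SP hA).1 k
    obtain rfl := le_antisymm h k1
    exact k2.ne' (hz.self hb)

theorem not_SM_of_le (hA : IsUpperSet A) (hz : Zc A z) (hb : b₀ ∈ A) (h : b₀ ≤ q) : q ∉ SM A z b₀ :=
  fun k => by
    rcases mem_SM.1 k with k | ⟨-, k1, k2⟩
    · exact k.1 (hA h hb)
    obtain rfl := le_antisymm h k1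
    exact k2.ne' (hz.self hb)

theorem e_pos (L : LC E A δ) (q : P) : δ ≤ Fintype.card P * δ :=
  le_mul_of_one_le_left L.δ0.le (by
    have : Nonempty P := ⟨q⟩
    exact_mod_cast Fintype.card_pos)

theorem lam_compl (hA : IsUpperSet A) (hy : y ∈ L.U) :
    wS Aᶜ (L.lam y) ≤ L.m y + Fintype.card P * δ := by
  linarith [LC.le_w hy Aᶜ, LC.w_not hy, p_zero (L := L) hA y]

theorem m_le (hy : y ∈ L.U) : L.m y ≤ L.w Aᶜ y := wS_mono (L.nonneg y hy) fun _ _ h => h.1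

theorem tau_mem (hc : c < 1 / 2) {x : ℝ} (h1 : c < x) (h2 : x < 1 - c) :
    0 < tau c x ∧ tau c x < 1 :=
  ⟨(tau_nonneg c x).lt_of_ne' fun e => h1.not_ge ((tau_zero_iff hc).1 e),
    (tau_le_one c x).lt_of_ne fun e => h2.not_ge ((tau_one_iff hc).1 e)⟩

theorem exp_ne {t : ℝ} (h1 : -1 < t) (h2 : t < 1) (h0 : t ≠ 0) : Circle.exp (2 * π * t) ≠ 1 := by
  rw [Ne, Circle.exp_eq_one]
  rintro ⟨n, hn⟩
  have e : t = n := mul_left_cancel₀ Real.two_pi_pos.ne' (by linarith)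
  rw [e] at h0 h1 h2
  have a0 : n ≠ 0 := by exact_mod_cast h0
  have a1 : -1 < n := by exact_mod_cast h1
  have a2 : n < 1 := by exact_mod_cast h2
  omega

theorem eq_half (hc : c < 1 / 2) {x : ℝ} (h : Circle.exp (2 * π * tau c x) = -1) : x = 1 / 2 := by
  rw [show (-1 : Circle) = Circle.exp π from Circle.ext (by simp), Circle.exp_eq_exp] at h
  obtain ⟨n, hn⟩ := h
  have e : tau c x = 1 / 2 + n := mul_left_cancel₀ Real.two_pi_pos.ne' (by linarith)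
  have a1 : (-1 : ℝ) < n := by linarith [tau_nonneg c x]
  have a2 : (n : ℝ) < 1 := by linarith [tau_le_one c x]
  have a1 : -1 < n := by exact_mod_cast a1
  have a2 : n < 1 := by exact_mod_cast a2
  obtain rfl : n = 0 := by omega
  have h2 : tau c (1 / 2) = 1 / 2 := by
    have := tau_symm hc (1 / 2)
    norm_num at this ⊢
    linarith
  have hm : StrictMonoOn (tau c) (Icc c (1 - c)) := strictMonoOn_of_deriv_pos (convex_Icc _ _)
    (contDiff_tau c).continuous.continuousOn fun t ht => by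
      rw [interior_Icc] at ht
      exact deriv_tau_pos ht.1 ht.2
  refine hm.injOn ⟨?_, ?_⟩ ⟨hc.le, by linarith⟩ (by rw [e, h2]; simp)
  · by_contra n
    rw [(tau_zero_iff hc).2 (not_le.1 n).le] at e
    norm_num at e
  · by_contra n
    rw [(tau_one_iff hc).2 (not_le.1 n).le] at e
    norm_num at e

/-! ### I1 -/

variable (L z b c) in
/-- the region of I1 -/
def G1 : Set E := {q | q ∈ L.U ∧ L.m q < b ∧ L.phi z c q ≠ 1}

variable (A δ b c) in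
/-- good PL weights for I1 -/
structure C1 (b₀ : P) (S₀ S₁ : Set P) (ν : P → ℝ) : Prop where
  big : δ ≤ ν b₀
  m : wS Aᶜ ν ≤ b - 2 * (Fintype.card P * δ)
  lo : wS S₀ ν ≤ c - Fintype.card P * δ
  h1 : c + 2 * (Fintype.card P * δ) ≤ wS S₁ ν
  h2 : wS S₁ ν ≤ 1 - c - 2 * (Fintype.card P * δ)

theorem seg1 (hA : IsUpperSet A) (hz : Zc A z) (ht : Thr (Fintype.card P * δ) a b c)
    (hb : b₀ ∈ A) {S₀ S₁ : Set P}
    (hS : (S₀ = SM A z b₀ ∧ S₁ = SP A z b₀) ∨ (S₀ = SP A z b₀ ∧ S₁ = SM A z b₀))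
    (hT : Chn T) (h : On T ν) (h' : On T ν') (k : C1 A δ b c b₀ S₀ S₁ ν)
    (k' : C1 A δ b c b₀ S₀ S₁ ν') : JoinedIn (G1 z b c L) (pt L.X ν) (pt L.X ν') := by
  have e0 := L.δ0.trans_le (e_pos L b₀)
  obtain ⟨t0, t1, t2, t3⟩ := ht
  have hc : c < 1 / 2 := by linarith
  refine JoinedIn.ofLine (sg_cont (pt L.X ν) (pt L.X (ν' - ν))).continuousOn (sg_zero _ _)
    (sg_one _ _ _) ?_
  rintro _ ⟨τ, hτ, rfl⟩
  have s := sg_pl L hT h h' (by linarith [k.m]) (by linarith [k'.m]) hτ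
  generalize sg (pt L.X ν) (pt L.X (ν' - ν)) τ = y at s
  have m1 : L.m y < b := by linarith [m_le s.mem, s.le _ _ k.m k'.m]
  refine ⟨s.mem, m1, ?_⟩
  have a0 := (tau_zero_iff hc).2 (show L.w S₀ y ≤ c by linarith [s.le _ _ k.lo k'.lo])
  obtain ⟨a1, a2⟩ := tau_mem hc (show c < L.w S₁ y by linarith [s.ge _ _ k.h1 k'.h1])
    (by linarith [s.le _ _ k.h2 k'.h2])
  rw [LC.phi_eq hz hc s.mem (by rw [p_zero hA]; linarith) (by linarith) hb (s.big _ k.big k'.big),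
    LC.uu]
  rcases hS with ⟨rfl, rfl⟩ | ⟨rfl, rfl⟩
  · rw [a0]; exact exp_ne (by linarith) (by linarith) (by linarith)
  · rw [a0]; exact exp_ne (by linarith) (by linarith) (by linarith)

/-- the midpoint -/
def mid (x y : P) : P → ℝ := w3 x y y (1 / 2) (1 / 2) 0

theorem mid01 (x₀ x₁ x₂ : P) : mid x₀ x₁ = w3 x₀ x₁ x₂ (1 / 2) (1 / 2) 0 := by simp [mid, w3]
theorem mid02 (x₀ x₁ x₂ : P) : mid x₀ x₂ = w3 x₀ x₁ x₂ (1 / 2) 0 (1 / 2) := by simp [mid, w3]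
theorem mid12 (x₀ x₁ x₂ : P) : mid x₁ x₂ = w3 x₀ x₁ x₂ 0 (1 / 2) (1 / 2) := by simp [mid, w3]

theorem io_c (h : q ∈ A) : io Aᶜ q = 0 := io_not fun n => n h

theorem triR (hA : IsUpperSet A) (hz : Zc A z) (ht : Thr (Fintype.card P * δ) a b c)
    (h0 : x₀ ∈ A) (l1 : x₀ ≤ x₁) (l2 : x₁ ≤ x₂) (hp : 0 < z x₀ x₁) :
    JoinedIn (G1 z b c L) (pt L.X (mid x₀ x₁)) (pt L.X (mid x₀ x₂)) := by
  have h1 := hA l1 h0
  have h2 := hA l2 h1
  have e0 := e_pos L x₀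
  have e1 := L.small
  have e2 := L.δ0
  have p1 : x₁ ∈ SP A z x₀ := (mem_SP hA).2 ⟨h1, l1, hp⟩
  have p2 : x₂ ∈ SP A z x₀ := hz.SP_up L.conv h0 p1 l2
  have key : ∀ β γ : ℝ, 0 ≤ β → 0 ≤ γ → β + γ = 1 / 2 →
      C1 A δ b c x₀ (SM A z x₀) (SP A z x₀) (w3 x₀ x₁ x₂ (1 / 2) β γ) := fun β γ hβ hγ h => by
    obtain ⟨t0, t1, t2, t3⟩ := ht
    refine ⟨le_trans (by linarith) (le_w3₀ hβ hγ), ?_, ?_, ?_, ?_⟩
    · rw [wS_w3, io_c h0, io_c h1, io_c h2]; linarith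
    · rw [wS_w3, io_not (not_SM_of_le hA hz h0 le_rfl), io_not (not_SM_of_le hA hz h0 l1),
        io_not (not_SM_of_le hA hz h0 (l1.trans l2))]; linarith
    · rw [wS_w3, io_not (hz.not_SP h0), io_mem p1, io_mem p2]; linarith
    · rw [wS_w3, io_not (hz.not_SP h0), io_mem p1, io_mem p2]; linarith
  rw [mid01 x₀ x₁ x₂, mid02 x₀ x₁ x₂]
  exact seg1 hA hz ht h0 (.inl ⟨rfl, rfl⟩) (chn3 (.inl l1) (.inl l2) (.inl (l1.trans l2)))
    (on_w3 (by simp) (by simp) (by simp) (by norm_num) (by norm_num) (by norm_num) (by norm_num))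
    (on_w3 (by simp) (by simp) (by simp) (by norm_num) (by norm_num) (by norm_num) (by norm_num))
    (key _ _ (by norm_num) le_rfl (by norm_num)) (key _ _ le_rfl (by norm_num) (by norm_num))

theorem triL (hA : IsUpperSet A) (hz : Zc A z) (ht : Thr (Fintype.card P * δ) a b c)
    (h0 : x₀ ∈ A) (l1 : x₀ ≤ x₁) (l2 : x₁ ≤ x₂) (hp : 0 < z x₁ x₂) :
    JoinedIn (G1 z b c L) (pt L.X (mid x₁ x₂)) (pt L.X (mid x₀ x₂)) := by
  have h1 := hA l1 h0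
  have h2 := hA l2 h1
  have e0 := e_pos L x₀
  have e1 := L.small
  have e2 := L.δ0
  have p1 : x₁ ∈ SM A z x₂ := mem_SM.2 (.inr ⟨h1, l2, hp⟩)
  have p0 : x₀ ∈ SM A z x₂ := mem_SM.2 (.inr ⟨h0, l1.trans l2, by
    linarith [hz.add _ h0 _ h1 _ h2 l1 l2, hz.nn _ h0 _ h1 l1]⟩)
  have key : ∀ α β : ℝ, 0 ≤ α → 0 ≤ β → α + β = 1 / 2 →
      C1 A δ b c x₂ (SP A z x₂) (SM A z x₂) (w3 x₀ x₁ x₂ α β (1 / 2)) := fun α β hα hβ h => by
    obtain ⟨t0, t1, t2, t3⟩ := ht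
    refine ⟨le_trans (by linarith) (le_w3₂ hα hβ), ?_, ?_, ?_, ?_⟩
    · rw [wS_w3, io_c h0, io_c h1, io_c h2]; linarith
    · rw [wS_w3, io_not (not_SP_of_le hA hz h2 le_rfl), io_not (not_SP_of_le hA hz h2 l2),
        io_not (not_SP_of_le hA hz h2 (l1.trans l2))]; linarith
    · rw [wS_w3, io_not (not_SM_of_le hA hz h2 le_rfl), io_mem p1, io_mem p0]; linarith
    · rw [wS_w3, io_not (not_SM_of_le hA hz h2 le_rfl), io_mem p1, io_mem p0]; linarith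
  rw [mid12 x₀ x₁ x₂, mid02 x₀ x₁ x₂]
  exact seg1 hA hz ht h2 (.inr ⟨rfl, rfl⟩) (chn3 (.inl l1) (.inl l2) (.inl (l1.trans l2)))
    (on_w3 (by simp) (by simp) (by simp) (by norm_num) (by norm_num) (by norm_num) (by norm_num))
    (on_w3 (by simp) (by simp) (by simp) (by norm_num) (by norm_num) (by norm_num) (by norm_num))
    (key _ _ le_rfl (by norm_num) (by norm_num)) (key _ _ (by norm_num) le_rfl (by norm_num))

theorem triO (hA : IsUpperSet A) (hz : Zc A z) (ht : Thr (Fintype.card P * δ) a b c)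
    (h0 : x₀ ∉ A) (h1 : x₁ ∈ A) (l1 : x₀ ≤ x₁) (l2 : x₁ ≤ x₂) (hp : 0 < z x₁ x₂) :
    ∃ q, JoinedIn (G1 z b c L) (pt L.X (mid x₁ x₂)) q ∧ a < L.m q := by
  have h2 := hA l2 h1
  have e0 := e_pos L x₀
  have e1 := L.small
  have e2 := L.δ0
  have o0 : x₀ ∈ Om A := ⟨h0, x₁, h1, l1⟩
  have p1 : x₁ ∈ SM A z x₂ := mem_SM.2 (.inr ⟨h1, l2, hp⟩)
  have p0 : x₀ ∈ SM A z x₂ := mem_SM.2 (.inl o0)
  obtain ⟨t0, t1, t2, t3⟩ := id ht
  have key : ∀ α : ℝ, 0 ≤ α → α ≤ (a + b) / 2 → C1 A δ b c x₂ (SP A z x₂) (SM A z x₂)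
      (w3 x₀ x₁ x₂ α ((1 - α) / 2) ((1 - α) / 2)) := fun α hα h => by
    refine ⟨le_trans (by linarith) (le_w3₂ hα (by linarith)), ?_, ?_, ?_, ?_⟩
    · rw [wS_w3, io_mem (show x₀ ∈ Aᶜ from h0), io_c h1, io_c h2]; linarith
    · rw [wS_w3, io_not (not_SP_of_le hA hz h2 le_rfl), io_not (not_SP_of_le hA hz h2 l2),
        io_not (not_SP_of_le hA hz h2 (l1.trans l2))]; linarith
    · rw [wS_w3, io_not (not_SM_of_le hA hz h2 le_rfl), io_mem p1, io_mem p0]; linarith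
    · rw [wS_w3, io_not (not_SM_of_le hA hz h2 le_rfl), io_mem p1, io_mem p0]; linarith
  have hT := chn3 (.inl l1) (.inl l2) (.inl (l1.trans l2))
  have hon : ∀ α : ℝ, 0 ≤ α → α ≤ (a + b) / 2 →
      On {x₀, x₁, x₂} (w3 x₀ x₁ x₂ α ((1 - α) / 2) ((1 - α) / 2)) := fun α hα h =>
    on_w3 (by simp) (by simp) (by simp) hα (by linarith) (by linarith) (by ring)
  have k1 := key ((a + b) / 2) (by linarith) le_rfl
  have o1 := hon ((a + b) / 2) (by linarith) le_rfl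
  have j := seg1 (L := L) hA hz ht h2 (.inr ⟨rfl, rfl⟩) hT
    (hon 0 le_rfl (by linarith)) o1 (key 0 le_rfl (by linarith)) k1
  rw [sub_zero, ← mid12] at j
  refine ⟨_, j, ?_⟩
  obtain ⟨r1, r2⟩ := L.real _ (o1.isWt hT) (by linarith [k1.m])
  have := LC.le_w r1 (Om A)
  rw [r2, wS_w3, io_mem o0, io_not (fun n : x₁ ∈ Om A => n.1 h1),
    io_not (fun n : x₂ ∈ Om A => n.1 h2)] at this
  show a < L.w _ _
  linarith

theorem tb_join (hA : IsUpperSet A) (hz : Zc A z) (ht : Thr (Fintype.card P * δ) a b c) {k : ℤ}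
    (h : Cut21.Tb A z x₀ x₁ k) (h0 : x₀ ∈ A) (h1 : x₁ ∈ A) :
    ∃ q, JoinedIn (G1 z b c L) (pt L.X (mid x₀ x₁)) q ∧ a < L.m q := by
  induction h with
  | base n _ => exact absurd h0 n
  | upR t k0 k1 _ ih =>
    obtain ⟨q, j, m⟩ := ih h0 (hA t.1 h0)
    exact ⟨q, (triR hA hz ht h0 t.1 t.2.1 (k0.trans_lt k1)).symm.trans j, m⟩
  | dnR t k0 k1 _ ih =>
    obtain ⟨q, j, m⟩ := ih h0 (hA t.2.1 h1)
    exact ⟨q, (triR hA hz ht h0 t.1 t.2.1 (k0.trans_lt k1)).trans j, m⟩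
  | upL t k0 k1 _ ih =>
    obtain ⟨q, j, m⟩ := ih (hA t.1 h0) h1
    exact ⟨q, (triL hA hz ht h0 t.1 t.2.1 (k0.trans_lt k1)).symm.trans j, m⟩
  | @dnL x y w k t k0 k1 _ ih =>
    by_cases hx : x ∈ A
    · obtain ⟨q, j, m⟩ := ih hx h1
      exact ⟨q, (triL hA hz ht hx t.1 t.2.1 (k0.trans_lt k1)).trans j, m⟩
    · exact triO hA hz ht hx h0 t.1 t.2.1 (k0.trans_lt k1)

theorem i1 (hA : IsUpperSet A) (hz : Zc A z) (hn : Cut21.NC A z)
    (ht : Thr (Fintype.card P * δ) a b c) (hp : p ∈ L.U) (hm : L.m p ≤ a) (h : L.phi z c p = -1) :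
    ∃ q, JoinedIn (G1 z b c L) p q ∧ a < L.m q := by
  obtain ⟨b₀, hb, g, k⟩ := LC.exists_low hz hp
  have e0 := e_pos L b₀
  have e1 := L.small
  have e2 := L.δ0
  obtain ⟨t0, t1, t2, t3⟩ := id ht
  have hc : c < 1 / 2 := by linarith
  rw [LC.phi_eq hz hc hp (by rw [p_zero hA]; linarith) (by linarith) hb (g.le hp), LC.uu,
    (tau_zero_iff hc).2 (show L.w (SM A z b₀) p ≤ c by linarith), sub_zero] at h
  have h2 := eq_half hc h
  obtain ⟨t, hs, gt⟩ := LC.exists_big (L := L) (S := SP A z b₀) (y := p) (by linarith)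
  obtain ⟨s1, s2, s3⟩ := (mem_SP hA).1 hs
  obtain ⟨q, j, m⟩ := tb_join (L := L) hA hz ht
    (hn b₀ t 0 ⟨s2, b₀, hb, Cm.rfl, .inl s2⟩ le_rfl s3) hb s1
  refine ⟨q, JoinedIn.trans ?_ j, m⟩
  have := seg1 (L := L) hA hz ht hb (.inl ⟨rfl, rfl⟩) (chn_lam hp) (on_lam hp)
    (on_w3 (α := 1 / 2) (β := 1 / 2) (γ := 0) (LC.ne_of_le (g.le hp)) (LC.ne_of_le (gt.le hp))
      (LC.ne_of_le (gt.le hp)) (by norm_num) (by norm_num) le_rfl (by norm_num))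
    ⟨g.le hp, by linarith [lam_compl hA hp], by linarith [LC.le_w hp (SM A z b₀)],
      by linarith [LC.w_le hp (SP A z b₀)], by linarith [LC.le_w hp (SP A z b₀)]⟩
    ⟨le_trans (by linarith) (le_w3₀ (by norm_num) le_rfl),
      by rw [wS_w3, io_c hb, io_c s1]; linarith,
      by rw [wS_w3, io_not (not_SM_of_le hA hz hb le_rfl), io_not (not_SM_of_le hA hz hb s2)]; linarith,
      by rw [wS_w3, io_not (hz.not_SP hb), io_mem hs]; linarith,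
      by rw [wS_w3, io_not (hz.not_SP hb), io_mem hs]; linarith⟩
  rwa [L.pos p hp] at this

theorem exists_pre {X : Type} [TopologicalSpace X] {F : Set X} {x y : X} (h : JoinedIn F x y) :
    ∃ S : Set X, IsPreconnected S ∧ x ∈ S ∧ y ∈ S ∧ S ⊆ F :=
  ⟨range h.somePath, isPreconnected_range h.somePath.continuous, ⟨0, by simp⟩, ⟨1, by simp⟩,
    range_subset_iff.2 h.somePath_mem⟩

/-- **I1** -/
theorem i1Stmt : I1Stmt := fun P _ _ A z δ a b c L hA hz hn ht p hp hm h => by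
  obtain ⟨q, j, m⟩ := i1 hA hz hn ht hp hm h
  obtain ⟨S, h1, h2, h3, h4⟩ := exists_pre j
  exact ⟨S, h1, h2, ⟨q, h3, m⟩, h4⟩

end Crest.Agent.X212.Hd34.S29
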