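import Crest.Agent.X212.Hd34.S29a

/-!
# X212 / Hd34 (helper34): the leaf I2 of `St29`
-/

set_option autoImplicit false
set_option linter.unusedSectionVars false

open Set Filter Topology Function Classical
open scoped ContDiff Real
open Crest.Agent.X212.Sm10 Crest.Agent.X212.Hp13 Crest.Agent.X212.Mol27 Crest.Agent.X212.Alg36
open Crest.Agent.X212.St29

noncomputable section

namespace Crest.Agent.X212.Hd34.S29

variable {E : Type} [NormedAddCommGroup E] [NormedSpace ℝ E] {P : Type} [PartialOrder P] [Fintype P]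
  {A T S : Set P} {z : P → P → ℤ} {δ a b c : ℝ} {L : LC E A δ} {ν ν' : P → ℝ} {y p : E}
  {x₀ x₁ x₂ b₀ q o o' : P}

variable (L z a b c) in
/-- the region of I2 -/
def G2 : Set (E × ℝ) := {q | q.1 ∈ L.U ∧ a < L.m q.1 ∧ L.m q.1 < b ∧ 0 < q.2 ∧
  L.phi z c q.1 = Circle.exp q.2}

variable (L z a b c) in
/-- a path from `y` to `y'` raises every lift by at least `d` -/
def Rl (d : ℝ) (y y' : E) : Prop := ∀ u, (y, u) ∈ G2 z a b c L →
  ∃ u', u + d ≤ u' ∧ JoinedIn (G2 z a b c L) (y, u) (y', u')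

theorem Rl.rfl : Rl z a b c L 0 y y := fun u h => ⟨u, by simp, .refl h⟩

theorem Rl.trans {d : ℝ} {y₁ y₂ y₃ : E} (h : Rl z a b c L 0 y₁ y₂) (h' : Rl z a b c L d y₂ y₃) :
    Rl z a b c L d y₁ y₃ := fun u hu => by
  obtain ⟨u₁, k, j⟩ := h u hu
  obtain ⟨u₂, k', j'⟩ := h' u₁ j.target_mem
  exact ⟨u₂, by linarith, j.trans j'⟩

theorem lift (hA : IsUpperSet A) (hz : Zc A z) (ht : Thr (Fintype.card P * δ) a b c) (hb : b₀ ∈ A)
    {v : E} {d : ℝ} (h : ∀ τ ∈ Icc (0 : ℝ) 1, sg y v τ ∈ L.U ∧ a < L.m (sg y v τ) ∧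
      L.m (sg y v τ) < b ∧ δ ≤ L.lam (sg y v τ) b₀ ∧ L.uu z c b₀ y ≤ L.uu z c b₀ (sg y v τ))
    (hd : d ≤ 2 * π * (L.uu z c b₀ (sg y v 1) - L.uu z c b₀ y)) :
    Rl z a b c L d y (sg y v 1) := fun u hu => by
  have e0 := L.δ0.trans_le (e_pos L b₀)
  obtain ⟨t0, t1, t2, t3⟩ := ht
  have hc : c < 1 / 2 := by linarith
  have ph : ∀ τ ∈ Icc (0 : ℝ) 1, L.phi z c (sg y v τ) =
      Circle.exp (2 * π * L.uu z c b₀ (sg y v τ)) := fun τ hτ =>
    LC.phi_eq hz hc (h τ hτ).1 (by rw [p_zero hA]; linarith) (by linarith [(h τ hτ).2.2.1]) hb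
      (h τ hτ).2.2.2.1
  have p0 := ph 0 (left_mem_Icc.2 zero_le_one)
  rw [sg_zero, show L.phi z c y = Circle.exp u from hu.2.2.2.2] at p0
  refine ⟨_, by linarith, JoinedIn.ofLine
    (f := fun τ => (sg y v τ, u + 2 * π * (L.uu z c b₀ (sg y v τ) - L.uu z c b₀ y))) ?_
    (by simp [sg_zero]) rfl ?_⟩
  · exact (sg_cont y v).continuousOn.prodMk (continuousOn_const.add (continuousOn_const.mul
      (((L.contDiffOn_uu z c b₀).continuousOn.comp (sg_cont y v).continuousOn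
        fun τ hτ => (h τ hτ).1).sub continuousOn_const)))
  · rintro _ ⟨τ, hτ, rfl⟩
    obtain ⟨h1, h2, h3, -, h5⟩ := h τ hτ
    refine ⟨h1, h2, h3, ?_, ?_⟩
    · have := mul_nonneg Real.two_pi_pos.le (sub_nonneg.2 h5)
      have : 0 < u := hu.2.2.2.1
      show 0 < u + _
      linarith
    · show _ = Circle.exp (u + _)
      rw [ph τ hτ, Circle.exp_add, p0, ← Circle.exp_add]
      congr 1
      ring

theorem uu_zero (hc : c < 1 / 2) (h1 : L.w (SP A z b₀) y ≤ c) (h2 : L.w (SM A z b₀) y ≤ c) :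
    L.uu z c b₀ y = 0 := by
  rw [LC.uu, (tau_zero_iff hc).2 h1, (tau_zero_iff hc).2 h2, sub_zero]

theorem SP_le (hA : IsUpperSet A) (hz : Zc A z) (hb : b₀ ∈ A) (hy : y ∈ L.U) :
    L.w (SP A z b₀) y ≤ L.w (A \ {b₀}) y :=
  wS_mono (L.nonneg y hy) fun q _ h => ⟨((mem_SP hA).1 h).1, fun e => hz.not_SP hb (by
    rw [mem_singleton_iff] at e
    exact e ▸ h)⟩

theorem SM_le (hA : IsUpperSet A) (hz : Zc A z) (hb : b₀ ∈ A) (hy : y ∈ L.U) :
    L.w (SM A z b₀) y ≤ L.m y + L.w (A \ {b₀}) y :=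
  (wS_mono (L.nonneg y hy) fun q _ h => (mem_SM.1 h).imp id fun k => ⟨k.1, fun e => by
    rw [mem_singleton_iff] at e
    exact not_SM_of_le hA hz hb le_rfl (e ▸ h)⟩).trans (wS_union_le (L.nonneg y hy) _ _)

theorem lam_big (hA : IsUpperSet A) (hy : y ∈ L.U) :
    1 - L.m y - L.w (A \ {b₀}) y - δ ≤ L.lam y b₀ := by
  have h1 : L.w A y ≤ L.w (A \ {b₀}) y + L.w {b₀} y :=
    (wS_mono (L.nonneg y hy) fun q _ h => by
      by_cases e : q = b₀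
      exacts [.inr e, .inl ⟨h, e⟩]).trans (wS_union_le (L.nonneg y hy) _ _)
  have h2 : L.w {b₀} y = L.mu y b₀ := by simp [LC.w, wS, io]
  linarith [LC.w_compl hy A, LC.w_not hy, p_zero (L := L) hA y, LC.mu_lt hy b₀]

/-- exact moves -/
theorem mv (hy : y ∈ L.U) {f : P → ℝ} {t : P} (ht : δ ≤ L.lam y t) (h0 : ∀ q, 0 ≤ f q)
    (hc : ∀ q, f q ≠ 0 → δ + f q ≤ L.lam y q) (k : wS Aᶜ (L.lam y) ≤ 1 / 6)
    (k' : wS Aᶜ (L.lam y) + ((∑ q, f q) * io Aᶜ t - wS Aᶜ f) ≤ 1 / 6) (g : δ ≤ L.lam y b₀) {τ : ℝ}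
    (hτ : τ ∈ Icc (0 : ℝ) 1) : sg y (pt L.X (gw t f)) τ ∈ L.U ∧
      δ ≤ L.lam (sg y (pt L.X (gw t f)) τ) b₀ ∧
      L.lam (sg y (pt L.X (gw t f)) τ) = L.lam y + τ • gw t f ∧
      ∀ S, L.w S (sg y (pt L.X (gw t f)) τ) = L.w S y + τ * ((∑ q, f q) * io S t - wS S f) := by
  obtain ⟨r1, r2, r3⟩ := (LC.seg hy ht h0 hc k (by rwa [wS_add, wS_gw])).1 τ hτ
  refine ⟨r1, ?_, r2, fun S => ?_⟩
  · rw [sg, r2]
    simp only [Pi.add_apply, Pi.smul_apply, smul_eq_mul]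
    by_cases e : b₀ = t
    · subst e
      have : f b₀ ≤ ∑ q, f q := Finset.single_le_sum (fun q _ => h0 q) (Finset.mem_univ b₀)
      rw [gw_self]
      nlinarith [hτ.1]
    · rw [gw_ne f e]
      by_cases n : f b₀ = 0
      · rw [n]; simpa using g
      · nlinarith [hc b₀ n, hτ.2, h0 b₀]
  · rw [LC.w, sg, r3, wS_add, wS_smul, wS_gw, LC.w]

theorem io_max (S : Set P) (ν : P → ℝ) (δ : ℝ) : ∃ f : P → ℝ, (∀ q, 0 ≤ f q) ∧
    (∀ q, f q ≠ 0 → q ∈ S ∧ δ + f q ≤ ν q) ∧ ∀ q ∈ S, ν q - f q ≤ δ := by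
  refine ⟨fun q => io S q * max (ν q - δ) 0,
    fun q => mul_nonneg (io_nonneg _ _) (le_max_right _ _), fun q h => ?_, fun q h => ?_⟩
  · beta_reduce at h ⊢
    have h1 : q ∈ S := by_contra fun n => h (by rw [io_not n, zero_mul])
    rw [io_mem h1, one_mul] at h ⊢
    rcases le_total (ν q - δ) 0 with k | k
    · exact absurd (max_eq_right k) h
    · exact ⟨h1, by rw [max_eq_left k]; linarith⟩
  · beta_reduce
    rw [io_mem h, one_mul]
    linarith [le_max_left (ν q - δ) 0]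

theorem step1 (hA : IsUpperSet A) (hz : Zc A z) (ht : Thr (Fintype.card P * δ) a b c)
    (hy : y ∈ L.U) (h1 : a < L.m y) (h2 : L.m y < b) : ∃ b₀ ∈ A, ∃ y' ∈ L.U, Rl z a b c L 0 y y' ∧
      L.w (A \ {b₀}) y' ≤ 2 * (Fintype.card P * δ) ∧ L.m y' = L.m y := by
  obtain ⟨b₀, ⟨hb, g⟩, hm⟩ := (toFinite {q | q ∈ A ∧ δ ≤ L.lam y q}).exists_maximal
    (let ⟨q, h, k⟩ := LC.exists_bigA hy; ⟨q, h, k.le hy⟩)
  have e0 := L.δ0.trans_le (e_pos L b₀)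
  have e1 := L.small
  obtain ⟨t0, t1, t2, t3⟩ := id ht
  have hc : c < 1 / 2 := by linarith
  obtain ⟨f, f0, f1, f2⟩ := io_max A (L.lam y) δ
  have fz : ∀ S : Set P, (∀ q ∈ S, q ∉ A) → wS S f = 0 := fun S h =>
    wS_zero fun q hq => by_contra fun n => h q hq (f1 q n).1
  have k := lam_compl hA hy
  have r := fun τ hτ => mv hy g f0 (fun q h => (f1 q h).2) (by linarith)
    (by rw [io_c hb, fz Aᶜ fun _ h => h]; linarith) g (τ := τ) hτ
  have rm : ∀ τ ∈ Icc (0 : ℝ) 1, L.m (sg y (pt L.X (gw b₀ f)) τ) = L.m y := fun τ hτ => by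
    rw [LC.m, (r τ hτ).2.2.2, io_not fun n : b₀ ∈ Om A => n.1 hb, fz (Om A) fun _ h => h.1]; simp
  have o1 := right_mem_Icc.2 (zero_le_one' ℝ)
  have mono : ∀ τ ∈ Icc (0 : ℝ) 1, L.uu z c b₀ y ≤ L.uu z c b₀ (sg y (pt L.X (gw b₀ f)) τ) :=
    fun τ hτ => by
      rw [LC.uu, LC.uu, (r τ hτ).2.2.2, (r τ hτ).2.2.2, io_not (hz.not_SP hb),
        io_not (not_SM_of_le hA hz hb le_rfl), show wS (SP A z b₀) f = 0 from
          wS_zero fun q hq => by_contra fun n => by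
            have a1 : δ ≤ L.lam y q := by linarith [(f1 q n).2, f0 q]
            exact not_SP_of_le hA hz hb (hm ⟨(f1 q n).1, a1⟩ ((mem_SP hA).1 hq).2.1) hq]
      have := mul_nonneg hτ.1 (wS_nonneg f0 (SM A z b₀))
      have := monotone_tau hc (show L.w (SM A z b₀) y + τ * ((∑ q, f q) * 0 - wS (SM A z b₀) f) ≤
        L.w (SM A z b₀) y by linarith)
      simp only [mul_zero, sub_zero, add_zero] at this ⊢
      linarith
  refine ⟨b₀, hb, _, (r 1 o1).1, lift hA hz ht hb (fun τ hτ => ⟨(r τ hτ).1, by rwa [rm τ hτ],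
    by rwa [rm τ hτ], (r τ hτ).2.1, mono τ hτ⟩)
    (mul_nonneg Real.two_pi_pos.le (sub_nonneg.2 (mono 1 o1))), ?_, rm 1 o1⟩
  have := LC.w_le (r 1 o1).1 (A \ {b₀})
  rw [(r 1 o1).2.2.1] at this
  have h3 : wS (A \ {b₀}) (L.lam y + (1 : ℝ) • gw b₀ f) ≤ Fintype.card P * δ :=
    wS_le_card L.δ0.le fun q hq => by
      rw [one_smul, Pi.add_apply, gw_ne f hq.2]
      linarith [f2 q hq.1]
  linarith

theorem flat (hA : IsUpperSet A) (hz : Zc A z) (ht : Thr (Fintype.card P * δ) a b c) (hb : b₀ ∈ A)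
    {v : E} (h : ∀ τ ∈ Icc (0 : ℝ) 1, sg y v τ ∈ L.U ∧ a < L.m (sg y v τ) ∧
      L.m (sg y v τ) < b ∧ δ ≤ L.lam (sg y v τ) b₀ ∧ L.w (SP A z b₀) (sg y v τ) ≤ c ∧
      L.w (SM A z b₀) (sg y v τ) ≤ c) : Rl z a b c L 0 y (sg y v 1) := by
  have hc : c < 1 / 2 := by linarith [ht.h3]
  have u0 : ∀ τ ∈ Icc (0 : ℝ) 1, L.uu z c b₀ (sg y v τ) = 0 := fun τ hτ =>
    uu_zero hc (h τ hτ).2.2.2.2.1 (h τ hτ).2.2.2.2.2
  have u1 := u0 0 (left_mem_Icc.2 zero_le_one)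
  rw [sg_zero] at u1
  exact lift hA hz ht hb (fun τ hτ => ⟨(h τ hτ).1, (h τ hτ).2.1, (h τ hτ).2.2.1, (h τ hτ).2.2.2.1,
    by rw [u0 τ hτ, u1]⟩) (by rw [u0 1 (right_mem_Icc.2 zero_le_one), u1]; simp)

theorem step2 (hA : IsUpperSet A) (hz : Zc A z) (ht : Thr (Fintype.card P * δ) a b c)
    (hb : b₀ ∈ A) (hy : y ∈ L.U) (h1 : a < L.m y) (h2 : L.m y < b)
    (h3 : L.w (A \ {b₀}) y ≤ 2 * (Fintype.card P * δ)) : ∃ y' ∈ L.U, Rl z a b c L 0 y y' ∧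
      L.w (A \ {b₀}) y' ≤ 2 * (Fintype.card P * δ) ∧ L.m y' = (a + b) / 2 := by
  have e0 := e_pos L b₀
  have e1 := L.small
  have e2 := L.δ0
  obtain ⟨t0, t1, t2, t3⟩ := id ht
  have g := lam_big (b₀ := b₀) hA hy
  have k := lam_compl hA hy
  have o1 := right_mem_Icc.2 (zero_le_one' ℝ)
  have fin : ∀ v : E, (∀ τ ∈ Icc (0 : ℝ) 1, sg y v τ ∈ L.U ∧ δ ≤ L.lam (sg y v τ) b₀ ∧
      L.w (A \ {b₀}) (sg y v τ) = L.w (A \ {b₀}) y ∧
      L.m (sg y v τ) = L.m y + τ * ((a + b) / 2 - L.m y)) → ∃ y' ∈ L.U, Rl z a b c L 0 y y' ∧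
      L.w (A \ {b₀}) y' ≤ 2 * (Fintype.card P * δ) ∧ L.m y' = (a + b) / 2 := fun v h => by
    refine ⟨_, (h 1 o1).1, flat hA hz ht hb fun τ hτ => ?_, by rwa [(h 1 o1).2.2.1],
      by rw [(h 1 o1).2.2.2]; ring⟩
    obtain ⟨r1, r2, r3, r4⟩ := h τ hτ
    have m1 : a < L.m (sg y v τ) := by
      rw [r4]
      rcases hτ.2.eq_or_lt with e | e
      · rw [e]; linarith
      · nlinarith [hτ.1]
    have m2 : L.m (sg y v τ) < b := by
      rw [r4]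
      rcases hτ.2.eq_or_lt with e | e
      · rw [e]; linarith
      · nlinarith [hτ.1]
    exact ⟨r1, m1, m2, r2, by linarith [SP_le hA hz hb r1], by linarith [SM_le hA hz hb r1]⟩
  have nb : b₀ ∉ A \ {b₀} := fun n => n.2 rfl
  have nm : b₀ ∉ Om A := fun n => n.1 hb
  rcases le_total (L.m y) ((a + b) / 2) with l | l
  · obtain ⟨o, ho, go⟩ := LC.exists_big (L := L) (S := Om A) (y := y) (by
      show _ < L.m y
      linarith)
    have s : ∑ q, (((a + b) / 2 - L.m y) • e b₀ : P → ℝ) q = (a + b) / 2 - L.m y := by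
      simp [← Finset.mul_sum]
    refine fin (pt L.X (gw o (((a + b) / 2 - L.m y) • e b₀))) fun τ hτ => ?_
    obtain ⟨r1, r2, -, r4⟩ := mv (b₀ := b₀) (f := ((a + b) / 2 - L.m y) • e b₀) hy (go.le hy)
      (fun q => mul_nonneg (sub_nonneg.2 l) (e_nn _ _)) (fun q hq => by
        have : q = b₀ := by_contra fun n => hq (by simp [e_apply, n])
        subst this
        simp only [Pi.smul_apply, e_apply, if_true, smul_eq_mul]
        linarith) (by linarith)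
      (by rw [s, wS_smul, wS_e, io_c hb, io_mem (show o ∈ Aᶜ from ho.1)]; linarith) (by linarith) hτ
    refine ⟨r1, r2, ?_, ?_⟩
    · rw [r4, wS_smul, wS_e, io_not nb, io_not fun n : o ∈ A \ {b₀} => ho.1 n.1]; simp
    · refine (r4 (Om A)).trans ?_
      rw [s, wS_smul, wS_e, io_not nm, io_mem ho]
      show L.m y + _ = _
      ring
  · obtain ⟨f, f0, f1, f2⟩ := io_max (Om A) (L.lam y) δ
    have d1 : wS (Om A) (L.lam y) - wS (Om A) f ≤ Fintype.card P * δ := by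
      rw [← wS_sub]; exact wS_le_card L.δ0.le f2
    have d2 : L.m y ≤ wS (Om A) (L.lam y) + _ := LC.w_le hy (Om A)
    have d3 : 0 < wS (Om A) f := by linarith
    set θ := (L.m y - (a + b) / 2) / wS (Om A) f with hθ
    have θ0 : 0 ≤ θ := div_nonneg (sub_nonneg.2 l) d3.le
    have θ1 : θ ≤ 1 := (div_le_one d3).2 (by linarith)
    have θ2 : θ * wS (Om A) f = L.m y - (a + b) / 2 := div_mul_cancel₀ _ d3.ne'
    refine fin (pt L.X (gw b₀ (θ • f))) fun τ hτ => ?_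
    obtain ⟨r1, r2, -, r4⟩ := mv (b₀ := b₀) (t := b₀) (f := θ • f) hy (by linarith)
      (fun q => mul_nonneg θ0 (f0 q)) (fun q hq => by
        have := (f1 q (right_ne_zero_of_mul hq)).2
        have h4 : θ * f q ≤ f q := mul_le_of_le_one_left (f0 q) θ1
        show δ + θ * f q ≤ _
        linarith) (by linarith)
      (by
        have := wS_nonneg (μ := θ • f) (fun q => mul_nonneg θ0 (f0 q)) Aᶜ
        rw [io_c hb]
        linarith) (by linarith) hτ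
    refine ⟨r1, r2, ?_, ?_⟩
    · rw [r4, wS_smul, io_not nb, show wS (A \ {b₀}) f = 0 from
        wS_zero fun q hq => by_contra fun n => (f1 q n).1.1 hq.1]; simp
    · refine (r4 (Om A)).trans ?_
      rw [wS_smul, io_not nm, θ2]
      show L.m y + _ = _
      ring

variable (A z δ a b c) in
/-- good PL weights for I2 -/
structure C2 (b₀ : P) (ν : P → ℝ) : Prop where
  big : δ ≤ ν b₀
  m1 : (a + b) / 2 - Fintype.card P * δ ≤ wS (Om A) ν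
  m2 : wS (Om A) ν ≤ (a + b) / 2 + Fintype.card P * δ
  k : wS Aᶜ ν ≤ 1 / 6
  sm : wS (SM A z b₀) ν ≤ c - Fintype.card P * δ

theorem C2.sg (ht : Thr (Fintype.card P * δ) a b c) (k : C2 A z δ a b c b₀ ν)
    (k' : C2 A z δ a b c b₀ ν') (s : Sg L ν ν' y) : y ∈ L.U ∧ a < L.m y ∧ L.m y < b ∧
      δ ≤ L.lam y b₀ ∧ L.w (SM A z b₀) y ≤ c := by
  have e0 := L.δ0.trans_le (e_pos L b₀)
  obtain ⟨t0, t1, t2, t3⟩ := ht
  have h1 : _ ≤ L.m y := s.ge _ _ k.m1 k'.m1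
  have h2 : L.m y ≤ _ := s.le _ _ k.m2 k'.m2
  exact ⟨s.mem, by linarith, by linarith, s.big _ k.big k'.big, by linarith [s.le _ _ k.sm k'.sm]⟩

theorem seg2 (hA : IsUpperSet A) (hz : Zc A z) (ht : Thr (Fintype.card P * δ) a b c)
    (hb : b₀ ∈ A) (hT : Chn T) (h : On T ν) (h' : On T ν') (k : C2 A z δ a b c b₀ ν)
    (k' : C2 A z δ a b c b₀ ν') (l : wS (SP A z b₀) ν ≤ c - Fintype.card P * δ)
    (l' : wS (SP A z b₀) ν' ≤ c - Fintype.card P * δ) :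
    Rl z a b c L 0 (pt L.X ν) (pt L.X ν') := by
  rw [← sg_one L.X ν ν']
  refine flat hA hz ht hb fun τ hτ => ?_
  have s := sg_pl L hT h h' k.k k'.k hτ
  obtain ⟨r1, r2, r3, r4, r5⟩ := k.sg ht k' s
  exact ⟨r1, r2, r3, r4, by linarith [s.le _ _ l l'], r5⟩

variable (a b) in
/-- the standard point of a vertex of `R₋` -/
def vt (x o : P) : P → ℝ := w3 o o x ((a + b) / 2) 0 (1 - (a + b) / 2)

theorem vt_eq (x o q : P) : vt a b x o = w3 o q x ((a + b) / 2) 0 (1 - (a + b) / 2) := by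
  simp [vt, w3]

theorem vt_eq' (x o q : P) : vt a b x o = w3 q o x 0 ((a + b) / 2) (1 - (a + b) / 2) := by
  simp [vt, w3]

theorem c2A (L : LC E A δ) (hA : IsUpperSet A) (hz : Zc A z)
    (ht : Thr (Fintype.card P * δ) a b c) (ho : o ∈ Om A) (hb : b₀ ∈ A) (hq : q ∈ A)
    (n : q ∉ SM A z b₀) {β γ : ℝ} (hβ : 0 ≤ β) (hγ : δ ≤ γ) :
    C2 A z δ a b c b₀ (w3 o q b₀ ((a + b) / 2) β γ) := by
  have e0 := L.δ0.trans_le (e_pos L b₀)
  obtain ⟨t0, t1, t2, t3⟩ := ht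
  refine ⟨hγ.trans (le_w3₂ (by linarith) hβ), ?_, ?_, ?_, ?_⟩
  · rw [wS_w3, io_mem ho, io_not fun n : q ∈ Om A => n.1 hq, io_not fun n : b₀ ∈ Om A => n.1 hb]
    linarith
  · rw [wS_w3, io_mem ho, io_not fun n : q ∈ Om A => n.1 hq, io_not fun n : b₀ ∈ Om A => n.1 hb]
    linarith
  · rw [wS_w3, io_mem (show o ∈ Aᶜ from ho.1), io_c hq, io_c hb]; linarith
  · rw [wS_w3, io_mem (mem_SM.2 (.inl ho)), io_not n, io_not (not_SM_of_le hA hz hb le_rfl)]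
    linarith

theorem c2O (L : LC E A δ) (hA : IsUpperSet A) (hz : Zc A z)
    (ht : Thr (Fintype.card P * δ) a b c) (ho : o ∈ Om A) (ho' : o' ∈ Om A) (hb : b₀ ∈ A)
    {α β : ℝ} (hα : 0 ≤ α) (hβ : 0 ≤ β) (h : α + β = (a + b) / 2) :
    C2 A z δ a b c b₀ (w3 o o' b₀ α β (1 - (a + b) / 2)) := by
  have e0 := e_pos L b₀
  have e1 := L.small
  have e2 := L.δ0
  obtain ⟨t0, t1, t2, t3⟩ := ht
  refine ⟨le_trans (by linarith) (le_w3₂ hα hβ), ?_, ?_, ?_, ?_⟩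
  · rw [wS_w3, io_mem ho, io_mem ho', io_not fun n : b₀ ∈ Om A => n.1 hb]; linarith
  · rw [wS_w3, io_mem ho, io_mem ho', io_not fun n : b₀ ∈ Om A => n.1 hb]; linarith
  · rw [wS_w3, io_mem (show o ∈ Aᶜ from ho.1), io_mem (show o' ∈ Aᶜ from ho'.1), io_c hb]; linarith
  · rw [wS_w3, io_mem (mem_SM.2 (.inl ho)), io_mem (mem_SM.2 (.inl ho')),
      io_not (not_SM_of_le hA hz hb le_rfl)]
    linarith

theorem not_SP_out (hA : IsUpperSet A) (h : q ∉ A) : q ∉ SP A z b₀ := fun n => h ((mem_SP hA).1 n).1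

theorem z0_not (hA : IsUpperSet A) (hz : Zc A z) (hb : b₀ ∈ A) (hq : q ∈ A) (h : Ind26.Z0 z b₀ q) :
    q ∉ SP A z b₀ ∧ q ∉ SM A z b₀ := by
  rcases h with ⟨h, k⟩ | ⟨h, k⟩
  · exact ⟨fun n => ((mem_SP hA).1 n).2.2.ne' k, not_SM_of_le hA hz hb h⟩
  · exact ⟨not_SP_of_le hA hz hb h, fun n => (mem_SM.1 n).elim (fun n => n.1 hq) fun n => n.2.2.ne' k⟩

theorem half (hA : IsUpperSet A) (hz : Zc A z) (ht : Thr (Fintype.card P * δ) a b c)
    (h : Ind26.PD A b₀ o) (h' : Ind26.PD A q o) (k : Ind26.Z0 z b₀ q) :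
    Rl z a b c L 0 (pt L.X (vt a b b₀ o))
      (pt L.X (w3 o q b₀ ((a + b) / 2) ((1 - (a + b) / 2) / 2) ((1 - (a + b) / 2) / 2))) ∧
    Rl z a b c L 0 (pt L.X (w3 o q b₀ ((a + b) / 2) ((1 - (a + b) / 2) / 2) ((1 - (a + b) / 2) / 2)))
      (pt L.X (vt a b b₀ o)) := by
  have e0 := e_pos L b₀
  have e1 := L.small
  have e2 := L.δ0
  obtain ⟨t0, t1, t2, t3⟩ := id ht
  have ho : o ∈ Om A := ⟨h.2.1, b₀, h.1, h.2.2⟩
  obtain ⟨n1, n2⟩ := z0_not hA hz h.1 h'.1 k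
  have hT : Chn {o, q, b₀} := chn3 (.inl h'.2.2) (k.elim (fun k => .inr k.1) fun k => .inl k.1)
    (.inl h.2.2)
  have o1 : On {o, q, b₀} (w3 o q b₀ ((a + b) / 2) 0 (1 - (a + b) / 2)) :=
    on_w3 (by simp) (by simp) (by simp) (by linarith) le_rfl (by linarith) (by ring)
  have o2 : On {o, q, b₀} (w3 o q b₀ ((a + b) / 2) ((1 - (a + b) / 2) / 2) ((1 - (a + b) / 2) / 2)) :=
    on_w3 (by simp) (by simp) (by simp) (by linarith) (by linarith) (by linarith) (by ring)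
  have c1 := c2A L hA hz ht ho h.1 h'.1 n2 (γ := 1 - (a + b) / 2) le_rfl (by linarith)
  have c2 := c2A L hA hz ht ho h.1 h'.1 n2 (β := (1 - (a + b) / 2) / 2)
    (γ := (1 - (a + b) / 2) / 2) (by linarith) (by linarith)
  have l : ∀ β γ : ℝ, wS (SP A z b₀) (w3 o q b₀ ((a + b) / 2) β γ) ≤ c - Fintype.card P * δ :=
    fun β γ => by
      rw [wS_w3, io_not (not_SP_out hA ho.1), io_not n1, io_not (hz.not_SP h.1)]; linarith
  rw [vt_eq b₀ o q]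
  exact ⟨seg2 hA hz ht h.1 hT o1 o2 c1 c2 (l _ _) (l _ _),
    seg2 hA hz ht h.1 hT o2 o1 c2 c1 (l _ _) (l _ _)⟩

theorem step_mv (hA : IsUpperSet A) (hz : Zc A z) (ht : Thr (Fintype.card P * δ) a b c)
    {s t : P × P} (h : Ind26.Mv (Ind26.PD A) z s t) :
    Rl z a b c L 0 (pt L.X (vt a b s.1 s.2)) (pt L.X (vt a b t.1 t.2)) := by
  obtain ⟨x, o⟩ := s
  obtain ⟨x', o'⟩ := t
  obtain ⟨h1, h2, ⟨e, k⟩ | ⟨e, k⟩⟩ := h
  · dsimp only at *
    subst e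
    refine (half hA hz ht h1 h2 k).1.trans ?_
    have := (half (L := L) hA hz ht h2 h1 k.symm).2
    rwa [w3, add_right_comm] at this
  · dsimp only at *
    subst e
    have e0 := e_pos L x
    have e1 := L.small
    have e2 := L.δ0
    obtain ⟨t0, t1, t2, t3⟩ := id ht
    have ho : o ∈ Om A := ⟨h1.2.1, x, h1.1, h1.2.2⟩
    have ho' : o' ∈ Om A := ⟨h2.2.1, x, h1.1, h2.2.2⟩
    have l : ∀ α β γ : ℝ, wS (SP A z x) (w3 o o' x α β γ) ≤ c - Fintype.card P * δ :=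
      fun α β γ => by
        rw [wS_w3, io_not (not_SP_out hA ho.1), io_not (not_SP_out hA ho'.1),
          io_not (hz.not_SP h1.1)]; linarith
    rw [vt_eq x o o', vt_eq' x o' o]
    exact seg2 hA hz ht h1.1 (chn3 k (.inl h2.2.2) (.inl h1.2.2))
      (on_w3 (by simp) (by simp) (by simp) (by linarith) le_rfl (by linarith) (by ring))
      (on_w3 (by simp) (by simp) (by simp) le_rfl (by linarith) (by linarith) (by ring))
      (c2O L hA hz ht ho ho' h1.1 (by linarith) le_rfl (by ring))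
      (c2O L hA hz ht ho ho' h1.1 le_rfl (by linarith) (by ring)) (l _ _ _) (l _ _ _)

theorem step3 (hA : IsUpperSet A) (hz : Zc A z) (ht : Thr (Fintype.card P * δ) a b c)
    (hb : b₀ ∈ A) (hy : y ∈ L.U) (h3 : L.w (A \ {b₀}) y ≤ 2 * (Fintype.card P * δ))
    (hm : L.m y = (a + b) / 2) :
    ∃ o, Ind26.PD A b₀ o ∧ Rl z a b c L 0 y (pt L.X (vt a b b₀ o)) := by
  have e0 := e_pos L b₀
  have e1 := L.small
  have e2 := L.δ0
  obtain ⟨t0, t1, t2, t3⟩ := id ht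
  have g : δ ≤ L.lam y b₀ := by linarith [lam_big (b₀ := b₀) hA hy]
  obtain ⟨o, ho, go⟩ := LC.exists_big (L := L) (S := Om A) (y := y) (by
    show _ < L.m y
    linarith)
  refine ⟨o, ⟨hb, ho.1, (LC.cm_of_le hy (go.le hy) g).elim id fun n => absurd (hA n hb) ho.1⟩, ?_⟩
  have m1 : L.m y ≤ _ := LC.w_le hy (Om A)
  have m2 : _ ≤ L.m y + _ := LC.le_w hy (Om A)
  have := seg2 (L := L) hA hz ht hb (chn_lam hy) (on_lam hy)
    (on_w3 (α := (a + b) / 2) (β := 0) (γ := 1 - (a + b) / 2) (LC.ne_of_le (go.le hy))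
      (LC.ne_of_le (go.le hy)) (LC.ne_of_le g) (by linarith) le_rfl (by linarith) (by ring))
    ⟨g, by linarith, by linarith, by linarith [lam_compl hA hy],
      by linarith [LC.le_w hy (SM A z b₀), SM_le hA hz hb hy]⟩
    (c2O L hA hz ht ho ho hb (by linarith) le_rfl (by ring))
    (by linarith [LC.le_w hy (SP A z b₀), SP_le hA hz hb hy])
    (by rw [wS_w3, io_not (not_SP_out hA ho.1), io_not (hz.not_SP hb)]; linarith)
  rwa [L.pos y hy] at this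

theorem step4 (hA : IsUpperSet A) (hz : Zc A z) (ht : Thr (Fintype.card P * δ) a b c)
    (h : Ind26.PD A b₀ o) (l : b₀ ≤ q) (hp : 0 < z b₀ q) :
    ∃ y', Rl z a b c L 1 (pt L.X (vt a b b₀ o)) y' := by
  have e0 := e_pos L b₀
  have e1 := L.small
  have e2 := L.δ0
  obtain ⟨t0, t1, t2, t3⟩ := id ht
  have hc : c < 1 / 2 := by linarith
  have ho : o ∈ Om A := ⟨h.2.1, b₀, h.1, h.2.2⟩
  have hq := hA l h.1
  have n := not_SM_of_le hA hz h.1 l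
  have hT : Chn {o, q, b₀} := chn3 (.inl (h.2.2.trans l)) (.inr l) (.inl h.2.2)
  have o1 : On {o, q, b₀} (w3 o q b₀ ((a + b) / 2) 0 (1 - (a + b) / 2)) :=
    on_w3 (by simp) (by simp) (by simp) (by linarith) le_rfl (by linarith) (by ring)
  have o2 : On {o, q, b₀} (w3 o q b₀ ((a + b) / 2) (1 - (a + b) / 2 - δ) δ) :=
    on_w3 (by simp) (by simp) (by simp) (by linarith) (by linarith) (by linarith) (by ring)
  have c1 := c2A L hA hz ht ho h.1 hq n (γ := 1 - (a + b) / 2) le_rfl (by linarith)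
  have c2 := c2A L hA hz ht ho h.1 hq n (β := 1 - (a + b) / 2 - δ) (γ := δ) (by linarith) le_rfl
  have l1 : ∀ β γ : ℝ, wS (SP A z b₀) (w3 o q b₀ ((a + b) / 2) β γ) = β := fun β γ => by
    rw [wS_w3, io_not (not_SP_out hA ho.1), io_mem ((mem_SP hA).2 ⟨hq, l, hp⟩),
      io_not (hz.not_SP h.1)]; ring
  have s1 := sg_pl L hT o1 o1 c1.k c1.k (left_mem_Icc.2 zero_le_one)
  have s2 := sg_pl L hT o2 o2 c2.k c2.k (left_mem_Icc.2 zero_le_one)
  rw [sg_zero] at s1 s2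
  have u1 := uu_zero hc (by linarith [s1.le _ _ (l1 _ _).le (l1 _ _).le]) (c1.sg ht c1 s1).2.2.2.2
  rw [vt_eq b₀ o q]
  refine ⟨_, lift hA hz ht h.1 (v := pt L.X (w3 o q b₀ ((a + b) / 2) (1 - (a + b) / 2 - δ) δ -
    w3 o q b₀ ((a + b) / 2) 0 (1 - (a + b) / 2))) (fun τ hτ => ?_) ?_⟩
  · obtain ⟨r1, r2, r3, r4, r5⟩ := c1.sg ht c2 (sg_pl L hT o1 o2 c1.k c2.k hτ)
    refine ⟨r1, r2, r3, r4, ?_⟩
    rw [u1, LC.uu, (tau_zero_iff hc).2 r5, sub_zero]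
    exact tau_nonneg _ _
  · rw [u1, sg_one, LC.uu, (tau_zero_iff hc).2 (c2.sg ht c2 s2).2.2.2.2,
      (tau_one_iff hc).2 (by linarith [s2.ge _ _ (l1 _ _).ge (l1 _ _).ge])]
    linarith [Real.pi_gt_three]

theorem i2 (hA : IsUpperSet A) (hz : Zc A z) (hd : Ind26.CondD A z)
    (ht : Thr (Fintype.card P * δ) a b c) (hp : p ∈ L.U) (h1 : a < L.m p) (h2 : L.m p < b) :
    ∃ y', Rl z a b c L 1 p y' := by
  obtain ⟨b₀, hb, y₁, u₁, r₁, w₁, m₁⟩ := step1 hA hz ht hp h1 h2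
  obtain ⟨y₂, u₂, r₂, w₂, m₂⟩ := step2 hA hz ht hb u₁ (m₁ ▸ h1) (m₁ ▸ h2) w₁
  obtain ⟨o, ho, r₃⟩ := step3 hA hz ht hb u₂ w₂ m₂
  obtain ⟨t, hw, x, l, hx⟩ := hd b₀ o ho
  have r₄ : Ind26.PD A t.1 t.2 ∧ Rl z a b c L 0 (pt L.X (vt a b b₀ o)) (pt L.X (vt a b t.1 t.2)) := by
    clear l hx
    induction hw with
    | refl => exact ⟨ho, Rl.rfl⟩
    | tail _ k ih => exact ⟨k.2.1, ih.2.trans (step_mv hA hz ht k)⟩
  obtain ⟨y', r₅⟩ := step4 (L := L) hA hz ht r₄.1 l (hx.resolve_left fun n => n (hA l r₄.1.1))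
  exact ⟨y', r₁.trans (r₂.trans (r₃.trans (r₄.2.trans r₅)))⟩

/-- **I2** -/
theorem i2Stmt : I2Stmt := fun P _ _ A z δ a b c L hA hz hd ht p hp u h1 h2 h3 h4 => by
  obtain ⟨y', r⟩ := i2 hA hz hd ht hp h1 h2
  obtain ⟨u', l, j⟩ := r u ⟨hp, h1, h2, h3, h4⟩
  obtain ⟨S, k1, k2, k3, k4⟩ := exists_pre j
  exact ⟨S, k1, k2, ⟨_, k3, l⟩, k4⟩

end Crest.Agent.X212.Hd34.S29
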