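import Crest.Agent.X212.St29.Lf
import Crest.Agent.X212.Mol27.Real

/-!
# X212 / Hd34 (helper34): the leaf MU of `St29`
-/

set_option autoImplicit false
set_option linter.unusedSectionVars false

open Set Filter Topology Function Metric MeasureTheory
open scoped ContDiff NNReal Convolution Manifold
open Crest.GeometryTopology.DehnSurgery Crest.Agent.X212.Glue52 Crest.Agent.X212.Ext52
open Crest.Agent.X212.Sm10 Crest.Agent.X212.Hp13 Crest.Agent.X212.Mol27
open Crest.Agent.X212.St29

noncomputable section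

namespace Crest.Agent.X212.Hd34.S29

/-- an average of radius `ε` keeps lower bounds of differences -/
theorem exists_avg' {ε : ℝ} (hε : 0 < ε) {f : E3 → ℝ} (hf : LocallyIntegrable f volume) :
    ∃ A : E3 → ℝ, ContDiff ℝ ∞ A ∧ ∀ (y y' : E3) (c : ℝ),
      (∀ t ∈ ball (0 : E3) ε, c ≤ f (y' - t) - f (y - t)) → c ≤ A y' - A y := by
  let φ : ContDiffBump (0 : E3) := ⟨ε / 2, ε, by linarith, by linarith⟩
  have hsup : ∀ t, t ∉ ball (0 : E3) ε → φ.normed volume t = 0 := fun t ht => by
    by_contra h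
    exact ht (φ.support_normed_eq (μ := volume) ▸ (show t ∈ support (φ.normed volume) from h))
  have hint : ∀ y, Integrable (fun t => φ.normed volume t • f (y - t)) volume := fun y =>
    (φ.hasCompactSupport_normed.convolutionExists_left (ContinuousLinearMap.lsmul ℝ ℝ)
      φ.continuous_normed hf y).integrable
  have hdef : ∀ y, (φ.normed volume ⋆[ContinuousLinearMap.lsmul ℝ ℝ, volume] f) y =
      ∫ t, φ.normed volume t • f (y - t) := fun y => rfl
  refine ⟨φ.normed volume ⋆[ContinuousLinearMap.lsmul ℝ ℝ, volume] f,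
    φ.hasCompactSupport_normed.contDiff_convolution_left _ φ.contDiff_normed hf, fun y y' c h => ?_⟩
  rw [hdef, hdef, ← integral_sub (hint y') (hint y), ← φ.integral_normed_smul (μ := volume) c]
  refine integral_mono (φ.integrable_normed.smul_const c) ((hint y').sub (hint y)) fun t => ?_
  by_cases ht : t ∈ ball (0 : E3) ε
  · simpa [mul_sub] using mul_le_mul_of_nonneg_left (h t ht) (φ.nonneg_normed (μ := volume) t)
  · simp [hsup t ht]

theorem le_deriv {g : ℝ → ℝ} {r c : ℝ} (hg : DifferentiableAt ℝ g r)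
    (h : ∀ᶠ s in 𝓝[>] r, c * (s - r) ≤ g s - g r) : c ≤ deriv g r := by
  refine ge_of_tendsto ((hasDerivWithinAt_iff_tendsto_slope' (s := Ioi r) (by simp)).1
    hg.hasDerivAt.hasDerivWithinAt) ?_
  filter_upwards [h, self_mem_nhdsWithin] with s h1 h2
  rwa [slope_def_field, le_div_iff₀ (sub_pos.2 h2)]

theorem diff_ray (t : Tube) (y u : Circle) {r : ℝ} (h : 0 < r) :
    DifferentiableAt ℝ (fun r : ℝ => tb t (y, r * u)) r := by
  have h1 : ContDiff ℝ ∞ fun r : ℝ => (r : ℂ) * u := Complex.ofRealCLM.contDiff.mul contDiff_const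
  exact (contMDiffAt_iff_contDiffAt.1 (ContMDiffAt.comp (g := tb t)
    (f := fun r : ℝ => (y, (r : ℂ) * u)) r
    (contMDiffAt_tb (z := (y, (r : ℂ) * u)) (mul_ne_zero (by exact_mod_cast h.ne') u.coe_ne_zero))
    (contMDiffAt_const.prodMk h1.contMDiff.contMDiffAt))).differentiableAt (by simp)

/-- the tube radius is uniformly close to a linear function on small balls -/
theorem exists_flat (t : Tube) {κ : ℝ} (hκ : 0 < κ) : ∃ ε > 0, ∀ p, 1 / 2 ≤ rho t p →
    rho t p ≤ 5 / 2 → ball p ε ⊆ rho t ⁻¹' Icc (1 / 4) 3 ∧ ∃ D : E3 →L[ℝ] ℝ,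
      ∀ x ∈ ball p ε, ∀ y ∈ ball p ε, ‖rho t y - rho t x - D (y - x)‖ ≤ κ * ‖y - x‖ := by
  have hK : IsCompact (rho t ⁻¹' Icc (1 / 2) (5 / 2)) :=
    (isCompact_far t (r := 1 / 2) (by norm_num)).of_isClosed_subset
      (isClosed_Icc.preimage (continuous_rho t)) fun _ h => h.1
  obtain ⟨r, r0, hr⟩ := hK.exists_cthickening_subset_open
    (isOpen_Ioo.preimage (continuous_rho t) : IsOpen (rho t ⁻¹' Ioo (1 / 4) 3))
    fun p h => ⟨by linarith [h.1], by linarith [h.2]⟩
  have hs : ∀ x ∈ cthickening r (rho t ⁻¹' Icc (1 / 2) (5 / 2)), ContDiffAt ℝ ∞ (rho t) x :=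
    fun x hx => contDiffAt_rho (by linarith [(hr hx).1]) (by linarith [(hr hx).2])
  obtain ⟨ε, ε0, hε⟩ := Metric.uniformContinuousOn_iff.1
    (hK.cthickening.uniformContinuousOn_of_continuous (f := fderiv ℝ (rho t)) fun x hx =>
      ((hs x hx).continuousAt_fderiv (by simp)).continuousWithinAt) κ hκ
  refine ⟨min ε r, lt_min ε0 r0, fun p h1 h2 => ?_⟩
  have hb : ∀ x ∈ ball p (min ε r), x ∈ cthickening r (rho t ⁻¹' Icc (1 / 2) (5 / 2)) := fun x hx =>
    mem_cthickening_of_dist_le x p r _ ⟨h1, h2⟩ ((mem_ball.1 hx).le.trans (min_le_right _ _))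
  refine ⟨fun x hx => Ioo_subset_Icc_self (hr (hb x hx)), fderiv ℝ (rho t) p, fun x hx y hy => ?_⟩
  refine (convex_ball p _).norm_image_sub_le_of_norm_fderiv_le'
    (fun x hx => (hs x (hb x hx)).differentiableAt (by simp)) (fun x hx => ?_) hx hy
  rw [← dist_eq_norm]
  exact (hε x (hb x hx) p (hb p (mem_ball_self (lt_min ε0 r0)))
    ((mem_ball.1 hx).trans_le (min_le_left _ _))).le

/-- the barycentric coordinates vary little on small balls -/
theorem exists_near {k : KD} {η : ℝ≥0} {s : St} (g : Geo k η s) {δ : ℝ} (hδ : 0 < δ) :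
    ∃ ε > 0, ∀ p, 1 / 2 ≤ rho k.toTube p → ∀ x ∈ ball p ε, x ∈ interior g.R.B ∧
      ∀ q, g.R.lam q p - δ < g.R.lam q x := by
  have hK := isCompact_far k.toTube (r := 1 / 2) (by norm_num)
  obtain ⟨r, r0, hr⟩ := hK.exists_cthickening_subset_open (isOpen_interior (s := g.R.B))
    fun p h => g.far p (le_trans (by norm_num) h)
  obtain ⟨ε, ε0, hε⟩ := Metric.uniformContinuousOn_iff.1
    (hK.cthickening.uniformContinuousOn_of_continuous
      (g.R.continuousOn_wt.mono (hr.trans interior_subset))) δ hδ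
  refine ⟨min ε r, lt_min ε0 r0, fun p h1 x hx => ?_⟩
  have hb : ∀ x ∈ ball p (min ε r), x ∈ cthickening r (rho k.toTube ⁻¹' Ici (1 / 2)) := fun x hx =>
    mem_cthickening_of_dist_le x p r _ h1 ((mem_ball.1 hx).le.trans (min_le_right _ _))
  refine ⟨hr (hb x hx), fun q => ?_⟩
  have := (dist_le_pi_dist _ _ q).trans_lt (hε x (hb x hx) p (hb p (mem_ball_self (lt_min ε0 r0)))
    ((mem_ball.1 hx).trans_le (min_le_left _ _)))
  have := (abs_lt.1 this).1
  simp only [Real.lam]
  linarith

theorem sub_mem_ball {p x t : E3} {ε ε' : ℝ} (hx : x ∈ ball p ε) (ht : t ∈ ball (0 : E3) ε)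
    (h : 2 * ε ≤ ε') : x - t ∈ ball p ε' := by
  rw [mem_ball, dist_eq_norm] at *
  rw [sub_zero] at ht
  rw [sub_right_comm]
  linarith [norm_sub_le (x - p) t]

/-- **MU** -/
theorem muStmt : MuStmt := fun k => by
  classical
  obtain ⟨C, hC⟩ := exists_speed k.toTube
  have C0 : (0 : ℝ) < 4 * (C + 1) := by positivity
  refine ⟨(4 * (C + 1))⁻¹, by positivity, fun η hη s g δ hδ => ?_⟩
  have hη' : (η : ℝ) ≤ (4 * ((C : ℝ) + 1))⁻¹ := by exact_mod_cast hη
  have κC : (4 * ((C : ℝ) + 1))⁻¹ * C ≤ 1 / 4 := by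
    rw [inv_mul_le_iff₀ C0]; linarith
  obtain ⟨ε₁, e1, h1⟩ := exists_flat k.toTube (inv_pos.2 C0)
  obtain ⟨ε₂, e2, h2⟩ := exists_near g (half_pos hδ)
  have hi : LocallyIntegrable (g.R.B.indicator g.ρ) volume :=
    ((((g.R.continuousOn_pl _).congr g.ρ_pl).integrableOn_compact
      g.R.isCompact_B).integrable_indicator g.R.isCompact_B.measurableSet).locallyIntegrable
  set ε := min ε₁ ε₂ / 2 with hε
  have e0 : 0 < ε := half_pos (lt_min e1 e2)
  have l1 : 2 * ε ≤ ε₁ := by linarith [min_le_left ε₁ ε₂]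
  have l2 : 2 * ε ≤ ε₂ := by linarith [min_le_right ε₁ ε₂]
  obtain ⟨μ, m1, m2⟩ := exists_avg' e0 hi
  refine ⟨μ, m1, fun y u r r1 r2 => ?_, fun p hp x y hx hy => ?_⟩
  · have d := diff_ray k.toTube y u (r := r) (by linarith)
    have rp := rho_polar (t := k.toTube) (s := r) (by linarith) (by linarith) y u
    obtain ⟨b1, D, b2⟩ := h1 _ (rp.symm ▸ r1) (rp.symm ▸ r2)
    refine lt_of_lt_of_le (by norm_num : (0 : ℝ) < 1 / 4)
      (le_deriv ((m1.differentiable (by simp) _).comp r d) ?_)
    filter_upwards [nhdsWithin_le_nhds (d.continuousAt.eventually (ball_mem_nhds _ e0)),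
      Ioo_mem_nhdsGT (show r < 3 by linarith)] with v v1 v2
    refine m2 _ _ _ fun t ht => ?_
    have a1 := sub_mem_ball (mem_ball_self (x := tb k.toTube (y, r * u)) e0) ht l1
    have a2 := sub_mem_ball v1 ht l1
    have rv := rho_polar (t := k.toTube) (s := v) (by linarith [v2.1]) (by linarith [v2.2]) y u
    have c1 := b2 _ a1 _ a2
    have c2 := b2 _ (mem_ball_self e1) _ (ball_subset_ball (by linarith) v1)
    have c3 := (g.ρ_lip _ (convex_ball _ _) b1).dist_le_mul _ a2 _ a1
    have c4 := (hC y u).dist_le_mul v ⟨by linarith [v2.1], v2.2.le⟩ r ⟨by linarith, by linarith⟩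
    rw [indicator_of_mem (g.mem_B_of (le_trans (by norm_num) (b1 a1).1)),
      indicator_of_mem (g.mem_B_of (le_trans (by norm_num) (b1 a2).1))]
    rw [sub_sub_sub_cancel_right] at c1
    rw [rp, rv] at c2
    rw [dist_eq_norm, dist_eq_norm, sub_sub_sub_cancel_right] at c3
    rw [dist_eq_norm, Real.dist_eq, abs_of_pos (sub_pos.2 v2.1)] at c4
    generalize ‖tb k.toTube (y, v * u) - tb k.toTube (y, r * u)‖ = n at *
    have c5 : (4 * ((C : ℝ) + 1))⁻¹ * n ≤ (v - r) / 4 := by
      have := mul_le_mul_of_nonneg_left c4 (inv_pos.2 C0).le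
      nlinarith [v2.1]
    have c6 : η * n ≤ (v - r) / 4 := by
      have := mul_le_mul_of_nonneg_left c4 η.2
      have := mul_le_mul_of_nonneg_right (mul_le_mul_of_nonneg_right hη' C.2) (sub_pos.2 v2.1).le
      simp only [NNReal.val_eq_coe] at *
      nlinarith [v2.1]
    have := (abs_le.1 c1).1
    have := (abs_le.1 c2).2
    have := (abs_le.1 c3).1
    simp only [Pi.sub_apply] at *
    linarith
  · have hv : pt g.R.x (e y - e x) = g.R.x y - g.R.x x := by rw [pt_sub, pt_e, pt_e]
    have hev : ∀ᶠ σ : ℝ in 𝓝 0, μ (p + σ • (g.R.x y - g.R.x x)) =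
        μ p + σ * (g.ρ (g.R.x y) - g.ρ (g.R.x x)) := by
      have c1 : Continuous fun σ : ℝ => p + σ • (g.R.x y - g.R.x x) := by fun_prop
      have c2 : Continuous fun σ : ℝ => ‖σ • (e y - e x)‖ := by fun_prop
      filter_upwards [c1.continuousAt.eventually (ball_mem_nhds _ e0),
        c2.continuousAt.eventually_lt (continuousAt_const (y := δ / 2)) (by simpa using hδ)]
        with σ k1 k2
      rw [zero_smul, add_zero] at k1
      have key : ∀ t ∈ ball (0 : E3) ε, g.R.B.indicator g.ρ (p + σ • (g.R.x y - g.R.x x) - t) -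
          g.R.B.indicator g.ρ (p - t) = σ * (g.ρ (g.R.x y) - g.ρ (g.R.x x)) := fun t ht => by
        obtain ⟨a1, a2⟩ := h2 p hp _ (sub_mem_ball (mem_ball_self e0) ht l2)
        have a3 := (h2 p hp _ (sub_mem_ball k1 ht l2)).1
        have big : ∀ q, (σ • (e y - e x)) q ≠ 0 → δ / 2 < g.R.wt (p - t) q := fun q hq => by
          have := a2 q
          simp only [Real.lam] at this hx hy
          by_cases q1 : q = y
          · rw [q1] at this ⊢; linarith
          by_cases q2 : q = x
          · rw [q2] at this ⊢; linarith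
          simp [e_apply, q1, q2] at hq
        rw [add_sub_right_comm, ← hv, ← pt_smul] at a3 ⊢
        have hm := (bary g.R).move a1 (w := σ • (e y - e x))
          (by simp [← Finset.mul_sum]) (fun q hq => ((half_pos hδ).trans (big q hq)).ne')
          (fun q => by
            by_cases hq : (σ • (e y - e x)) q = 0
            · rw [hq, add_zero]; exact (bary g.R).nonneg a1 q
            · have := (abs_lt.1 ((norm_le_pi_norm (σ • (e y - e x)) q).trans_lt k2)).1
              have := big q hq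
              rw [bary_lam]
              linarith) a3
        rw [bary_lam, bary_x] at hm
        rw [indicator_of_mem (interior_subset a3), indicator_of_mem (interior_subset a1),
          g.ρ_pl _ (interior_subset a3), g.ρ_pl _ (interior_subset a1), Real.pl, Real.pl, hm, map_add,
          add_sub_cancel_left, map_smul, map_sub, e, e, cmb_single, cmb_single]
        simp
      have u1 := m2 _ _ _ fun t ht => (key t ht).ge
      have u2 := m2 (p + σ • (g.R.x y - g.R.x x)) p (-(σ * (g.ρ (g.R.x y) - g.ρ (g.R.x x))))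
        fun t ht => by linarith [key t ht]
      linarith
    have d1 : HasDerivAt (fun σ : ℝ => μ (p + σ • (g.R.x y - g.R.x x)))
        (fderiv ℝ μ p (g.R.x y - g.R.x x)) 0 := by
      have l1 : HasDerivAt (fun σ : ℝ => p + σ • (g.R.x y - g.R.x x)) (g.R.x y - g.R.x x) 0 := by
        simpa using ((hasDerivAt_id (0 : ℝ)).smul_const (g.R.x y - g.R.x x)).const_add p
      have l2 : HasFDerivAt μ (fderiv ℝ μ p) (p + (0 : ℝ) • (g.R.x y - g.R.x x)) := by
        simpa using (m1.differentiable (by simp) p).hasFDerivAt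
      exact l2.comp_hasDerivAt 0 l1
    have d2 : HasDerivAt (fun σ : ℝ => μ p + σ * (g.ρ (g.R.x y) - g.ρ (g.R.x x)))
        (g.ρ (g.R.x y) - g.ρ (g.R.x x)) 0 := by
      simpa using ((hasDerivAt_id (0 : ℝ)).mul_const (g.ρ (g.R.x y) - g.ρ (g.R.x x))).const_add (μ p)
    exact d1.unique (d2.congr_of_eventuallyEq hev)

end Crest.Agent.X212.Hd34.S29
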